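import Claimed.Agent.R286.Pe6.Defs
import Claimed.Agent.R286.Sc.GenDefs

/-!
# Row 286 (S0533), PE Section 5 "Profile rigidity": VOCABULARY OF THE SECTION      (owner helper98, head of PE Sec 5; deputy helper155; prefix `pf`, types `Pf*`)      DEFINITIONS ONLY, 0 sorry

Source: PE profile.tex l.1-36.   Built on `Defs/Clk` (76), `Cmp/Defs` (192), `Pe6/Defs` (14: `P6D`, `P6C`, `P6Seq`, `P6Reg`), `Sc/GenDefs` (183).
THE SCALAR CLOSURE VOCABULARY shared by PE Sec 4 (exit of the cavity), Sec 5 (rigidity) and Sec 7 (low group mean):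
* `pfKp n b h p`      the scalar clock `K = h + b S` of the path `(b,h)` at a POSITION `p`;      `pfKu n b h u` = the same at the mass `u`, after the jump (right continuous in `u`).
* `pfAl n b h`        `α_K` : mass profile of the scalar clock in VARIANCE TIME  (`= scAlK 1 (pfKu n b h)`).
* `pfGh n b h τ t`    `Γ(t)` : second conditional magnetisation moment of the scalar Ising recursion with the WHOLE clock `K`, as a function of the variance time `t ∈ [0,τ]`;
                      `τ` = horizon, any number `≥` the total clock (beyond the total clock the mass is `1`; the value does not depend on `τ`: A7 of the scalar block).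
                      Paper: `Γ(K_i) = pfGh n b h τ (pfKp n b h p_i)`,   `Γ^(q) = pfGh n b h τ (T q)`.
* `pfM2, pfN3, pfM3`  `E V_zz²`, `E V_zzz²`, `E V_zz³` along the same recursion (variance time).
* `P6C.tau`           THE horizon used for all PE calls with the constants `c : P6C`:  `2K + Tinf + 1 ≥ h(1) + b(1)` eventually (`T_k → Tinf`, `e ≤ d² ≤ T_k - ρ`).
* `pfS, pfB, pfDl`    `S_u`, `B_u`, `D_u` of the CHANGED path of an instance `D : P6D` at the strength `lam` and the quantile `r` (mass `u`, after the jump).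
* `pfK, pfG`          `K_u` and `Γ(·)` of the changed path.
* `PfDir U c D lam x r c1 C1 C0`      **the direct-test hypotheses** of PE Thm 5.1 / Prop 4.1 / Prop 3.8 along an ultrafilter  (= the hypotheses of `P6ImpDirect` for `fn = skCPr · 1`).
-/

set_option autoImplicit false

namespace Claimed.Agent.R286

open Filter Topology Set MeasureTheory Asymptotics

noncomputable section

/-! ## the scalar clock of a path and its scalar recursion -/

/-- the scalar clock `K = h + b S` at a position -/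
def pfKp (n : ℕ) (b h : ℝ → ℝ) (p : GhPos) : ℝ := ghAt 1 h p + ghAt 1 b p * skCS n 1 b h p

/-- the scalar clock at the mass `u` (after the jump) -/
def pfKu (n : ℕ) (b h : ℝ → ℝ) (u : ℝ) : ℝ := pfKp n b h (ghPosA u)

/-- `α_K`: the mass profile of the scalar clock, in variance time -/
def pfAl (n : ℕ) (b h : ℝ → ℝ) : ℝ → ℝ := scAlK 1 (pfKu n b h)

/-- `Γ` of the scalar recursion with the whole clock `K`, as a function of the variance time -/
def pfGh (n : ℕ) (b h : ℝ → ℝ) (τ t : ℝ) : ℝ := scaGam (scLC 1) (pfAl n b h) τ t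

/-- `E V_zz²` -/
def pfM2 (n : ℕ) (b h : ℝ → ℝ) (τ t : ℝ) : ℝ := scaM2 (scLC 1) (pfAl n b h) τ t

/-- `E V_zzz²` -/
def pfN3 (n : ℕ) (b h : ℝ → ℝ) (τ t : ℝ) : ℝ := scaN3 (scLC 1) (pfAl n b h) τ t

/-- `E V_zz³` -/
def pfM3 (n : ℕ) (b h : ℝ → ℝ) (τ t : ℝ) : ℝ := scaM3 (scLC 1) (pfAl n b h) τ t

/-- the horizon of all scalar recursions of PE calls with the constants `c` -/
def P6C.tau (c : P6C) : ℝ := 2 * c.K + c.Tinf + 1

/-! ## the numbers of the changed path of an instance -/

section inst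

variable (D : P6D) (lam : ℝ) (r : ℝ → ℝ)

/-- `S_u` of the changed path -/
def pfS (u : ℝ) : ℝ := skCS D.P.n 1 (D.Pb lam r) (D.Ph lam r) (ghPosA u)

/-- `B_u` of the changed path -/
def pfB (u : ℝ) : ℝ := skCB D.P.n 1 (D.Pb lam r) (D.Ph lam r) (ghPosA u)

/-- `D_u` of the changed path -/
def pfDl (u : ℝ) : ℝ := Real.sqrt (pfB D lam r u - pfS D lam r u ^ 2)

/-- `K_u` of the changed path -/
def pfK (u : ℝ) : ℝ := pfKu D.P.n (D.Pb lam r) (D.Ph lam r) u

/-- `Γ(t)` of the changed path (variance time, horizon `τ`) -/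
def pfG (τ t : ℝ) : ℝ := pfGh D.P.n (D.Pb lam r) (D.Ph lam r) τ t

end inst

/-! ## the direct test -/

/-- **the hypotheses of a small direct test** (PE profile.tex l.17-36, cavity.tex l.7-33, comparisons.tex Prop. 3.8) along an ultrafilter -/
structure PfDir (U : Ultrafilter ℕ) (c : P6C) (D : ℕ → P6D) (lam x : ℕ → ℝ) (r : ℕ → ℝ → ℝ) (c1 C1 C0 : ℝ) : Prop where
  c1_pos : 0 < c1
  C1_pos : 0 < C1
  C0_pos : 0 < C0
  seq : P6Seq U c D
  lam_rng : ∀ᶠ k in U, 0 < lam k ∧ lam k ≤ (D k).P.d ^ 2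
  fam : ∀ᶠ k in U, (D k).Fam (lam k)
  min : ∀ᶠ k in U, (D k).IsMin (fun n => skCPr n 1) (lam k) (r k)
  x_pos : ∀ᶠ k in U, 0 < x k
  x_lim : Tendsto x U (𝓝 0)
  /-- `x ≳ a` -/
  ax : (fun k => (D k).P.a) =O[U] x
  /-- `e(x) x² ≳ n E²` -/
  nE : (fun k => (D k).P.N * (D k).P.E ^ 2) =O[U] (fun k => (D k).P.e (lam k) (x k) * x k ^ 2)
  /-- `e(x) ≳ x²` -/
  xe : (fun k => x k ^ 2) =O[U] (fun k => (D k).P.e (lam k) (x k))
  /-- outer regularity above `x` -/
  reg : ∀ᶠ k in U, P6Reg (D k).P.u0 (r k) c1 C1 C0 (x k)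

theorem pf_defs_eqns_cite : True := by
  have := @pfKp.eq_1; have := @pfKu.eq_1; have := @pfAl.eq_1; have := @pfGh.eq_1; have := @pfM2.eq_1; have := @pfN3.eq_1; have := @pfM3.eq_1
  have := @P6C.tau.eq_1; have := @pfS.eq_1; have := @pfB.eq_1; have := @pfDl.eq_1; have := @pfK.eq_1; have := @pfG.eq_1
  trivial

end

end Claimed.Agent.R286
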