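import Claimed.Agent.R286.Prof.Defs

/-!
# Row 286 (S0533), PE Section 5, small test scales (Thm 5.1, L5.2-5.6): THE IMPORTS, typed as `Prop`s      (owner helper98, head of PE Sec 5)

Each import is to be PROVED BY ITS OWNER as a theorem `... : PfImpX ..` (in his own Exit file; he imports `Prof/Defs` + this file).   `exit_rig`, `exit_rig_lin` use NOTHING else of the model, besides the exits of PE Sec 3.
FRAME (ledger 142 D1-D3): ultrafilter, sequences of instances, constants first (`c : P6C`); the hypotheses are ALWAYS the record `PfDir` (Prof/Defs) = direct test.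

* `PfImpCav c`      PE Prop 4.1 (22), MODULUS FORM, on the bands of the test scale.          OWNER: helper256 + helper98 (block W4 of PE Sec 4, head helper223).      TEX[PE:prop:cavity-closure]
                    = `cav_clk_small` / `cav_clk_large` (Cav/Contract) + instantiation of `CavIn` from the exits of Sec 3 along the chains + U-frame + THE BRIDGE below.
* `PfImpCavOm c`    PE Prop 4.1, omitted lower cuts (`W = O(x)`): NOT used in Sec 5; typed here only to fix the vocabulary between Sec 4 (223/185) and Sec 7 (196, Lemma 7.3 (31)).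
* THE BRIDGE (part of the proof of `PfImpCav`, `PfImpCavOm`): `pfv_gam` (Prof/InstCav.lean, helper98, PROVED from `exit_cav_gam` + `sc_x_S` + `exit_clk_stat_pos`):   for `GhClk1 1 b`, `GhClk1 1 h`, `0 < τ`, `pfKu n b h 1 ≤ τ`, `0 ≤ u ≤ 1`:
                    `cvGamC n b h (ghPosA u) = pfGh n b h τ (pfKu n b h u)`      (left: limit along the chains of `Γ` of the scalar site with the clock of the chain, Cav/Defs; right: scalar library, variance time).
                    Only the positions AFTER THE JUMPS are used by Sec 5 and Sec 7 (inside a jump `skCS 1 1 0 K p` is NOT `Γ(K_p)`: ruling 142).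
* `PfImpSc`         PE Lemma 5.3 in variance time, fixed horizon, UNIFORM in the profile.      PROVED: `exit_sc_rig` (Exit/ScRig.lean, helper48), axioms clean.      TEX[PE:prof:scalar-derivatives]
                    consumer form: `RgSc.Ok` (Rig/Scal.lean, helper48).
PE Sec 3 needs no `Prop` here: the instance cites `exit_cmp_raw` (12), `exit_cmp_dir19m`, `exit_cmp_dir19r` (19), `exit_cmp_geo` / `cm4_geo` + `cm4_cap_*`, `cm4_contact`, `cm4_floor_mass` (Lemma 3.3 with the potential `H`, `J`: `Cm4Geo`).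
-/

set_option autoImplicit false

namespace Claimed.Agent.R286

open Filter Topology Set MeasureTheory Asymptotics

/-- **PE Prop 4.1, modulus form**: for a fixed direct test and a fixed band there are `η_k → 0`, `CC`, `ϑ > 0`, independent of the target cut of the band -/
def PfImpCav (c : P6C) : Prop :=
  ∀ (U : Ultrafilter ℕ) (D : ℕ → P6D) (lam x : ℕ → ℝ) (r : ℕ → ℝ → ℝ) (c1 C1 C0 : ℝ), PfDir U c D lam x r c1 C1 C0 →
    ∀ cb Cb : ℝ, 0 < cb → cb ≤ Cb → ∃ (η : ℕ → ℝ) (CC ϑ : ℝ), 0 < CC ∧ 0 < ϑ ∧ Tendsto η U (𝓝 0) ∧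
      ∀ᶠ k in U, ∀ u : ℝ, cb * x k ≤ u → u ≤ Cb * x k → r k u ≤ Cb * x k →
        |pfS (D k) (lam k) (r k) u - pfG (D k) (lam k) (r k) c.tau (pfK (D k) (lam k) (r k) u)|
          ≤ CC * x k ^ 3 * (η k + (pfDl (D k) (lam k) (r k) u / x k) ^ ϑ)

/-- **PE Prop 4.1, omitted lower cuts**: if `W = O(x)`, i.e. `e(x) = O(x²)`, the closure error is `O(x³)` at EVERY mass `0 ≤ u ≤ Cb x` (position after the jump; also below the working interval), no lower bound on the mass -/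
def PfImpCavOm (c : P6C) : Prop :=
  ∀ (U : Ultrafilter ℕ) (D : ℕ → P6D) (lam x : ℕ → ℝ) (r : ℕ → ℝ → ℝ) (c1 C1 C0 : ℝ), PfDir U c D lam x r c1 C1 C0 →
    (fun k => (D k).P.e (lam k) (x k)) =O[U] (fun k => x k ^ 2) →
    ∀ Cb : ℝ, ∃ CC : ℝ, ∀ᶠ k in U, ∀ u : ℝ, 0 ≤ u → u ≤ Cb * x k →
      |pfS (D k) (lam k) (r k) u - pfG (D k) (lam k) (r k) c.tau (pfK (D k) (lam k) (r k) u)| ≤ CC * x k ^ 3

/-- **PE Lemma 5.3 in variance time**: horizon `τ` fixed, terminal datum `log cosh`, constants uniform in the profile `α` -/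
def PfImpSc : Prop :=
  ∀ τ : ℝ, 0 < τ → ∃ cs Cs : ℝ, 0 < cs ∧ cs ≤ Cs ∧ ∀ α : ℝ → ℝ, ScCoef 1 τ α →
    (cs ≤ scaD 2 (scLC 1) α τ 0 0 ∧ scaD 2 (scLC 1) α τ 0 0 ≤ Cs) ∧
    (cs ≤ -scaD 4 (scLC 1) α τ 0 0 ∧ -scaD 4 (scLC 1) α τ 0 0 ≤ Cs) ∧
    ContinuousOn (scaN3 (scLC 1) α τ) (Icc 0 τ) ∧ ContinuousOn (scaM3 (scLC 1) α τ) (Icc 0 τ) ∧
    (∀ t ∈ Icc 0 τ, scaGam (scLC 1) α τ t = ∫ s in (0:ℝ)..t, scaM2 (scLC 1) α τ s) ∧
    scaM2 (scLC 1) α τ 0 = scaD 2 (scLC 1) α τ 0 0 ^ 2 ∧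
    (∀ t ∈ Icc 0 τ, scaM2 (scLC 1) α τ t = scaM2 (scLC 1) α τ 0 + ∫ s in (0:ℝ)..t, (scaN3 (scLC 1) α τ s - 2 * α s * scaM3 (scLC 1) α τ s)) ∧
    (∀ t ∈ Icc 0 τ, |scaN3 (scLC 1) α τ t - scaD 4 (scLC 1) α τ 0 0 ^ 2 * t| ≤ Cs * t ^ 2) ∧
    (∀ t ∈ Icc 0 τ, |scaM3 (scLC 1) α τ t - scaD 2 (scLC 1) α τ 0 0 ^ 3| ≤ Cs * t)

theorem pf_imports_eqns_cite : True := by
  have := @PfImpCav.eq_1; have := @PfImpCavOm.eq_1; have := @PfImpSc.eq_1
  trivial

end Claimed.Agent.R286
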