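import Claimed.Agent.R286.Prof.InstSk

/-!
# Row 286 (S0533), PE Section 5, unit PROF, file InstMain: THE SK INSTANCE OF RIG, SEQUENCES AND ASSEMBLY      (owner helper166; head helper98; prefix `pfk_`, types `Pfk*`)

Source: PE profile.tex l.17-140 (Step 0: the inputs), l.364-396 (Lemma 5.5), l.400-570 (Thm 5.1).
* `pfk_step0`     PfDir ⟹ eventually a feasible quantile `q` with `q.r = r k`, `Std`, `Loc`, potential `H, J` of Lemma 3.3  (`PfkGood`, Prof/InstSk);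
* `PfkEv .. E`    `E k` is eventually the record `(pfkSys ..).phy` of a good system;
* `pfk_raw` (12) from `exit_cmp_raw`;   `pfk_D_mass`, `pfk_D_rad` (19) from `exit_cmp_dir19m/r`;   `pfk_clo` (22) from `PfImpCav`;   `pfk_bare` (4) from `pfs_bare` (98);   limits of `a2, a4` along the ultrafilter;
* `pfk_seq`       the record `PfiSeq` (Prof/InstSk);
* **`pfk_rig`** = the statement of `exit_rig` / `exit_p6_direct`,   **`pfk_rig_lin`** = the statement of `exit_rig_lin`,   from the two imports `PfImpSc`, `PfImpCav c` (Prof/Imports) as hypotheses.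
-/

set_option autoImplicit false

namespace Claimed.Agent.R286

open Filter Topology Set MeasureTheory Asymptotics

noncomputable section

variable {U : Ultrafilter ℕ} {c : P6C} {D : ℕ → P6D} {lam x : ℕ → ℝ} {r : ℕ → ℝ → ℝ} {c1 C1 C0 : ℝ}

theorem pfk_num (hc : c.Ok) (h : PfDir U c D lam x r c1 C1 C0) : PfiNum U c D lam x :=
  ⟨hc, h.seq, h.lam_rng, h.x_pos, h.x_lim, h.ax, h.xe⟩

theorem pfk_mul_x_lt (hx : Tendsto x U (𝓝 0)) (C : ℝ) {ε : ℝ} (hε : 0 < ε) : ∀ᶠ k in U, C * x k < ε := by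
  have := hx.const_mul C
  rw [mul_zero] at this
  exact this.eventually (gt_mem_nhds hε)

theorem pfk_c1_le (h : PfDir U c D lam x r c1 C1 C0) : c1 ≤ C1 := by
  obtain ⟨k, hk, hr, ok⟩ := ((pfk_mul_x_lt h.x_lim C0 one_pos).and (h.reg.and h.seq.ok)).exists
  have := hr 1 hk.le le_rfl (by linarith [ok.u01])
  linarith [this.1, this.2]

theorem pfk_n_ge (h : P6Seq U c D) (n0 : ℕ) : ∀ᶠ k in U, n0 ≤ (D k).P.n := by
  filter_upwards [h.n_top.eventually_ge_atTop (n0:ℝ)] with k hk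
  have hk' : (n0:ℝ) ≤ ((D k).P.n : ℝ) := hk
  exact_mod_cast hk'

theorem pfk_u0_lt (hN : PfiNum U c D lam x) {ε : ℝ} (hε : 0 < ε) : ∀ᶠ k in U, (D k).P.u0 < ε * x k := by
  filter_upwards [(pfi_u0 hN).eventually (gt_mem_nhds hε), hN.x_pos] with k hk hx
  rwa [div_lt_iff₀ hx] at hk

/-! ## Step 0 -/

/-- **Step 0**: the direct test delivers the standing and the local hypotheses of PE Sec. 3 and the potential of Lemma 3.3 -/
theorem pfk_step0 (hc : c.Ok) (h : PfDir U c D lam x r c1 C1 C0) :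
    ∃ ca ce : ℝ, 0 < ca ∧ 0 < ce ∧ ∀ᶠ k in U, ∃ (q : CmQ (D k).P) (H J : ℝ → ℝ),
      PfkGood c (D k) (lam k) (x k) (r k) ca ce c1 C1 C0 q H J := by
  have hN := pfk_num hc h
  obtain ⟨Ca, hCa, ha⟩ := pfi_a_le hN
  obtain ⟨Ce, hCe, he⟩ := h.nE.exists_pos
  obtain ⟨n0, hpot⟩ := exit_cmp_pot (mm := c.m) (cE := c.cE) (D0 := c.D0) (Tm := c.tau) hc.m_pos hc.cE_pos
  refine ⟨Ca⁻¹, Ce⁻¹, inv_pos.2 hCa, inv_pos.2 hCe, ?_⟩
  filter_upwards [ha, he.bound, pfk_n_ge h.seq n0, h.x_lim.eventually (gt_mem_nhds one_pos), pfk_u0_lt hN one_pos, h.seq.ok, h.seq.m_eq,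
    h.seq.dT, h.seq.clk, h.seq.mono, h.lam_rng, h.fam, h.min, h.x_pos, h.reg, pfi_T_pos hN]
    with k ha he hn hx1 hu0 ok hm hdT hclk hmono hl hfam hmin hx hreg hT
  obtain ⟨⟨q, hq⟩, hmin2⟩ := hmin
  have h1m : (1:ℝ) ∈ Icc (0:ℝ) 1 := ⟨zero_le_one, le_rfl⟩
  have hu1 : (D k).P.u0 ≤ 1 := by linarith [ok.u01]
  have hK := hc.K_pos
  have hρ := hc.ρ_pos
  have he0 := cm_e_pos (D k).P hl.1 (q.r 1)
  have he1 := cm_e_le (D k).P hl.1.le (q.r 1)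
  have hr1 := q.r_mem 1 ⟨hu1, le_rfl⟩
  have hstd : (pfkI (D k) (lam k) q).Std c.cE c.D0 c.tau := by
    refine ⟨ok, hl.1, hl.2, fun q' => hfam q'.r ⟨q', rfl⟩, fun q' => ?_, ?_, ?_⟩
    · have := hmin2 q'.r ⟨q', rfl⟩
      rw [← hq] at this
      exact this
    · show (D k).Pb (lam k) q.r 1 ≤ 2 * c.K + c.Tinf + 1
      unfold P6D.Pb
      rw [if_pos hu1]
      have := (abs_le.1 (hclk 1 h1m).1).2
      linarith
    · show (D k).Ph (lam k) q.r 1 ≤ 2 * c.K + c.Tinf + 1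
      unfold P6D.Ph
      rw [if_pos hu1]
      have h2 := (abs_le.1 (hclk 1 h1m).2).2
      have h3 : (D k).P.e (lam k) (q.r 1) * q.r 1 ≤ (D k).P.e (lam k) (q.r 1) := mul_le_of_le_one_right he0.le hr1.2
      linarith [hl.2]
  obtain ⟨H, J, hHJ⟩ := hpot (pfkI (D k) (lam k) q) hstd hm.ge hn
  refine ⟨q, H, J, hq, hstd, ⟨hx, hx1.le, ?_, ?_, ?_⟩, hmono.2, hm, by linarith, hHJ, hT.1, hT.2⟩
  · show Ca⁻¹ * (D k).P.a ≤ x k
    rw [inv_mul_le_iff₀ hCa]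
    exact ha
  · show Ce⁻¹ * ((D k).P.N * (D k).P.E ^ 2) ≤ (D k).P.e (lam k) (x k) * x k ^ 2
    rw [inv_mul_le_iff₀ hCe]
    rw [Real.norm_eq_abs, Real.norm_eq_abs, abs_of_nonneg (mul_nonneg (cm_e_pos _ hl.1 _).le (sq_nonneg _))] at he
    exact (le_abs_self _).trans he
  · show q.Reg c1 C1 C0 (x k)
    intro u h1 h2 h3
    rw [hq]
    exact hreg u h1 h2 h3

/-- `E k` is eventually the record of a good system -/
def PfkEv (U : Ultrafilter ℕ) (c : P6C) (D : ℕ → P6D) (lam x : ℕ → ℝ) (r : ℕ → ℝ → ℝ) (ca ce c1 C1 C0 : ℝ) (E : ℕ → RgPhy) : Prop :=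
  ∀ᶠ k in U, ∃ (q : CmQ (D k).P) (H J : ℝ → ℝ), PfkGood c (D k) (lam k) (x k) (r k) ca ce c1 C1 C0 q H J ∧
    E k = (pfkSys (D k) (lam k) (x k) c.tau q H J).phy

theorem pfk_main_eqns_cite : True := by
  have := @PfkEv.eq_1
  trivial

theorem pfk_ex_E (hc : c.Ok) (h : PfDir U c D lam x r c1 C1 C0) :
    ∃ (ca ce : ℝ) (E : ℕ → RgPhy), 0 < ca ∧ 0 < ce ∧ PfkEv U c D lam x r ca ce c1 C1 C0 E := by
  obtain ⟨ca, ce, hca, hce, hg⟩ := pfk_step0 hc h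
  have h1 : ∀ᶠ k in U, ∃ e : RgPhy, ∃ (q : CmQ (D k).P) (H J : ℝ → ℝ), PfkGood c (D k) (lam k) (x k) (r k) ca ce c1 C1 C0 q H J ∧
      e = (pfkSys (D k) (lam k) (x k) c.tau q H J).phy := hg.mono fun k ⟨q, H, J, g⟩ => ⟨_, q, H, J, g, rfl⟩
  obtain ⟨E, hE⟩ := h1.choice
  exact ⟨ca, ce, E, hca, hce, hE⟩

/-! ## the five analytic inputs -/

section inputs

variable {ca ce Csc : ℝ} {E : ℕ → RgPhy}

/-- PE (12) -/
theorem pfk_raw (hc : c.Ok) (hca : 0 < ca) (hce : 0 < ce) (hc1 : 0 < c1) (hC1 : 0 < C1) (hC0 : 0 < C0)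
    (hE : PfkEv U c D lam x r ca ce c1 C1 C0 E) :
    ∃ Cr : ℝ, ∀ᶠ n in U, ∀ u ∈ Icc (0:ℝ) 1, (E n).S u ≤ Cr * (u + (E n).x) ∧ (E n).Dd u ≤ Cr * (u + (E n).x) := by
  obtain ⟨K, hK, hr⟩ := exit_cmp_raw c.m c.cE c.D0 c.tau ca ce c1 C1 C0 hc.m_pos hc.cE_pos hc.D0_pos (pfk_tau_pos hc) hca hce hc1 hC1 hC0 1 le_rfl
  refine ⟨K, ?_⟩
  filter_upwards [hE] with k ⟨q, H, J, g, e⟩ u hu
  rw [e]
  exact pfk_raw_one g hK (hr (pfkI (D k) (lam k) q) (x k) g.m_eq.ge g.std g.h0m g.u0x g.loc) hu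

/-- PE (19), mass -/
theorem pfk_D_mass (hN : PfiNum U c D lam x) (hca : 0 < ca) (hce : 0 < ce) (hc1 : 0 < c1) (hcC : c1 ≤ C1) (hC0 : 0 < C0)
    (hsc : ∀ (n : ℕ) (b h : ℝ → ℝ), (pfkSc n b h c.tau).Ok Csc) (hE : PfkEv U c D lam x r ca ce c1 C1 C0 E) (cc CC : ℝ) (hcc : 0 < cc) :
    Tendsto (fun n => (∫ u in Icc (cc * (E n).x) (CC * (E n).x), (E n).Dd u ^ 2) / (E n).x ^ 3) U (𝓝 0) := by
  have hc := hN.cok
  obtain ⟨K1, n0, hK1, hb⟩ := exit_cmp_dir19m (mm := c.m) (cE := c.cE) (D0 := c.D0) (Tm := c.tau) (ca := ca) (ce := ce) (c := c1) (C := C1)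
    (C0 := C0) (c' := cc) (C' := max cc (max CC (C1 * max CC C0))) hc.m_pos hc.cE_pos hc.D0_pos (pfk_tau_pos hc) hca hce hc1 hcC hC0 hcc (le_max_left _ _)
  have l1 : Tendsto (fun k => K1 * (D k).P.N ^ (-c.m)) U (𝓝 0) := by
    simpa using (pfi_Npow hN hc.m_pos).const_mul K1
  refine squeeze_zero' ?_ ?_ l1
  · filter_upwards [hE] with k ⟨q, H, J, g, e⟩
    rw [e]
    exact div_nonneg (setIntegral_nonneg measurableSet_Icc fun u _ => sq_nonneg _) (pow_nonneg g.loc.x0.le 3)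
  · filter_upwards [hE, pfk_n_ge hN.seq n0, pfk_u0_lt hN hcc, pfk_mul_x_lt hN.x_lim (max CC C0) one_pos] with k ⟨q, H, J, g, e⟩ hn hu0 hx1
    rw [e]
    have hx := g.loc.x0
    show (∫ u in Icc (cc * x k) (CC * x k), (pfkSys (D k) (lam k) (x k) c.tau q H J).Dd u ^ 2) / x k ^ 3 ≤ _
    rw [div_le_iff₀ (pow_pos hx 3)]
    have hY := pfk_ok hc g (hsc _ _ _)
    have h1 := hb (pfkI (D k) (lam k) q) (x k) g.std g.h0m g.m_eq g.loc g.u0x hn
    refine pfi_Dmass_one (C' := max cc (max CC (C1 * max CC C0))) hY (hc1.le.trans hcC) ((le_max_left _ _).trans (le_max_right _ _))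
      ((le_max_right _ _).trans (le_max_right _ _)) hu0.le hx1.le ?_
    rw [← g.m_eq]
    exact h1

/-- PE (19), radius -/
theorem pfk_D_rad (hN : PfiNum U c D lam x) (hca : 0 < ca) (hce : 0 < ce) (hc1 : 0 < c1) (hcC : c1 ≤ C1) (hC0 : 0 < C0)
    (hsc : ∀ (n : ℕ) (b h : ℝ → ℝ), (pfkSc n b h c.tau).Ok Csc) (hE : PfkEv U c D lam x r ca ce c1 C1 C0 E) (cc CC : ℝ) (hcc : 0 < cc) :
    Tendsto (fun n => (∫ ρ in (E n).I cc CC, (E n).Dd ((E n).m ρ) ^ 2) / (E n).x ^ 3) U (𝓝 0) := by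
  have hc := hN.cok
  rcases lt_or_ge CC cc with hlt | hge
  · -- the band is empty
    refine tendsto_const_nhds.congr' ?_
    filter_upwards [hE] with k ⟨q, H, J, g, e⟩
    have hx : 0 < (E k).x := by rw [e]; exact g.loc.x0
    have hemp : (E k).I cc CC = ∅ := by
      ext ρ
      simp only [mem_empty_iff_false, iff_false]
      rintro ⟨-, -, h2, h3⟩
      have := mul_lt_mul_of_pos_right hlt hx
      linarith
    rw [hemp]
    simp
  obtain ⟨K1, n0, hK1, hb⟩ := exit_cmp_dir19r (mm := c.m) (cE := c.cE) (D0 := c.D0) (Tm := c.tau) (ca := ca) (ce := ce) (c := c1) (C := C1)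
    (C0 := C0) (c' := cc) (C' := CC) hc.m_pos hc.cE_pos hc.D0_pos (pfk_tau_pos hc) hca hce hc1 hcC hC0 hcc hge
  have hdl : 0 < c.dl / 16 := by have := pfi_c_dl_pos hN; positivity
  have l1 : Tendsto (fun k => K1 * (D k).P.N ^ (-(c.dl / 16))) U (𝓝 0) := by
    simpa using (pfi_Npow hN hdl).const_mul K1
  refine squeeze_zero' ?_ ?_ l1
  · filter_upwards [hE] with k ⟨q, H, J, g, e⟩
    rw [e]
    exact div_nonneg (integral_nonneg fun u => sq_nonneg _) (pow_nonneg g.loc.x0.le 3)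
  · filter_upwards [hE, pfk_n_ge hN.seq n0, pfk_u0_lt hN hcc, pfk_mul_x_lt hN.x_lim CC one_pos, pfi_dl hN] with k ⟨q, H, J, g, e⟩ hn hu0 hx1 hd
    rw [e]
    have hx := g.loc.x0
    show (∫ ρ in (pfkSys (D k) (lam k) (x k) c.tau q H J).phy.I cc CC,
      (pfkSys (D k) (lam k) (x k) c.tau q H J).phy.Dd ((pfkSys (D k) (lam k) (x k) c.tau q H J).phy.m ρ) ^ 2) / x k ^ 3 ≤ _
    rw [div_le_iff₀ (pow_pos hx 3)]
    have hY := pfk_ok hc g (hsc _ _ _)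
    have h1 := hb (pfkI (D k) (lam k) q) (x k) g.std g.h0m g.m_eq g.loc g.u0x hn
    refine pfi_Drad_one hY hu0 hx1.le ?_
    rw [← hd.1]
    exact h1

/-- PE (22), modulus form -/
theorem pfk_clo (hc : c.Ok) (hCav : PfImpCav c) (h : PfDir U c D lam x r c1 C1 C0)
    (hsc : ∀ (n : ℕ) (b h : ℝ → ℝ), (pfkSc n b h c.tau).Ok Csc) (hE : PfkEv U c D lam x r ca ce c1 C1 C0 E) (cc CC : ℝ) (hcc : 0 < cc) :
    ∃ (ω : ℝ → ℝ) (η : ℕ → ℝ), Monotone ω ∧ Tendsto ω (𝓝[>] 0) (𝓝 0) ∧ Tendsto η U (𝓝 0) ∧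
      ∀ᶠ n in U, ∀ u, cc * (E n).x ≤ u → u ≤ CC * (E n).x →
        |(E n).S u - (E n).Gm ((E n).K u / (E n).T)| ≤ (E n).x ^ 3 * (η n + ω ((E n).Dd u / (E n).x)) := by
  have hN := pfk_num hc h
  obtain ⟨η, K, ϑ, hK, hϑ, hη, hb⟩ := hCav U D lam x r c1 C1 C0 h cc (max cc (max CC (C1 * max CC C0))) hcc (le_max_left _ _)
  refine ⟨fun y => K * (max y 0) ^ ϑ, fun k => K * η k, ?_, ?_, ?_, ?_⟩
  · intro a b hab
    exact mul_le_mul_of_nonneg_left (Real.rpow_le_rpow (le_max_right _ _) (max_le_max_right 0 hab) hϑ.le) hK.le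
  · have hcont : Continuous fun y : ℝ => K * (max y 0) ^ ϑ :=
      continuous_const.mul ((continuous_id.max continuous_const).rpow_const fun _ => Or.inr hϑ.le)
    have h0 := hcont.tendsto 0
    simp only [max_self, Real.zero_rpow hϑ.ne', mul_zero] at h0
    exact h0.mono_left nhdsWithin_le_nhds
  · simpa using hη.const_mul K
  · filter_upwards [hE, hb, pfk_u0_lt hN hcc, pfk_mul_x_lt hN.x_lim (max CC C0) one_pos] with k ⟨q, H, J, g, e⟩ hb hu0 hx1 u h1 h2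
    rw [e] at h1 h2 ⊢
    have h1' : cc * x k ≤ u := h1
    have h2' : u ≤ CC * x k := h2
    have hx := g.loc.x0
    have hT : 0 < (D k).T := by linarith [g.T1]
    have hY := pfk_ok hc g (hsc _ _ _)
    have hu01 : u ∈ Icc (0:ℝ) 1 :=
      ⟨(mul_pos hcc hx).le.trans h1', h2'.trans ((mul_le_mul_of_nonneg_right (le_max_left _ _) hx.le).trans hx1.le)⟩
    have hr : q.r u ≤ max cc (max CC (C1 * max CC C0)) * x k :=
      (pfi_r_le hY h.C1_pos.le (hu0.le.trans h1') h2' hx1.le).trans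
        (mul_le_mul_of_nonneg_right ((le_max_right _ _).trans (le_max_right _ _)) hx.le)
    have h3 := hb u h1' (h2'.trans (mul_le_mul_of_nonneg_right ((le_max_left _ _).trans (le_max_right _ _)) hx.le)) (by rw [← g.qr]; exact hr)
    rw [← g.qr] at h3
    show |pfS (D k) (lam k) q.r u - pfGh (D k).P.n ((D k).Pb (lam k) q.r) ((D k).Ph (lam k) q.r) c.tau ((D k).T * (pfK (D k) (lam k) q.r u / (D k).T))|
      ≤ x k ^ 3 * (K * η k + K * (max ((pfkSys (D k) (lam k) (x k) c.tau q H J).Dd u / x k) 0) ^ ϑ)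
    rw [mul_div_cancel₀ _ hT.ne']
    have e2 : (pfkSys (D k) (lam k) (x k) c.tau q H J).Dd u = pfDl (D k) (lam k) q.r u := by
      show Real.sqrt (pfB (D k) (lam k) q.r (pfiC01 u) - pfS (D k) (lam k) q.r (pfiC01 u) ^ 2) = _
      rw [pfi_c01_of_mem hu01]
      rfl
    have e3 : 0 ≤ pfDl (D k) (lam k) q.r u / x k := div_nonneg (Real.sqrt_nonneg _) hx.le
    rw [e2, max_eq_left e3]
    refine h3.trans (le_of_eq ?_)
    ring

/-- PE (4) -/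
theorem pfk_bare (hc : c.Ok) (h : PfDir U c D lam x r c1 C1 C0) (hE : PfkEv U c D lam x r ca ce c1 C1 C0 E) (c' C' ε : ℝ) (hc' : 0 < c') (hε : 0 < ε) :
    ∀ᶠ n in U, ∀ u, c' * (E n).x ≤ u → u ≤ C' * (E n).x →
      |(E n).b0 u - (E n).T| ≤ ε * (E n).x ^ 2 ∧ |(E n).h0 u| ≤ ε * (E n).x ^ 3 := by
  filter_upwards [pfs_bare (pfk_num hc h) (h.min.mono fun k hk => hk.1) h.fam c' C' ε hc' hε, hE] with k hk ⟨q, H, J, g, e⟩ u h1 h2
  rw [e] at h1 h2 ⊢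
  have := hk u h1 h2
  rw [← g.qr] at this
  exact this

end inputs

/-! ## assembly -/

/-- **the record `PfiSeq` of the SK instance** -/
theorem pfk_seq (hc : c.Ok) (hCav : PfImpCav c) {cs Cs : ℝ} (hcs : 0 < cs)
    (hsc : ∀ (n : ℕ) (b h : ℝ → ℝ), (pfkSc n b h c.tau).Ok Cs ∧ pfsA2 n b h c.tau ∈ Icc cs Cs ∧ -pfsA4 n b h c.tau ∈ Icc cs Cs)
    (h : PfDir U c D lam x r c1 C1 C0) :
    ∃ (E : ℕ → RgPhy) (ca ce a2 a4 : ℝ), PfkEv U c D lam x r ca ce c1 C1 C0 E ∧ PfiSeq U c D lam x E c1 C1 C0 Cs a2 a4 ∧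
      a2 ∈ Icc cs Cs ∧ -a4 ∈ Icc cs Cs := by
  obtain ⟨ca, ce, E, hca, hce, hE⟩ := pfk_ex_E hc h
  have hN := pfk_num hc h
  have hcC := pfk_c1_le h
  have hsc1 := fun n b h => (hsc n b h).1
  obtain ⟨a2, ha2, l2⟩ := aq_ultra_lim_Icc U (f := fun k => (E k).a2) (a := cs) (b := Cs) (by
    filter_upwards [hE] with k ⟨q, H, J, g, e⟩
    rw [e]
    exact (hsc _ _ _).2.1)
  obtain ⟨a4', ha4, l4⟩ := aq_ultra_lim_Icc U (f := fun k => -(E k).a4) (a := cs) (b := Cs) (by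
    filter_upwards [hE] with k ⟨q, H, J, g, e⟩
    rw [e]
    exact (hsc _ _ _).2.2)
  refine ⟨E, ca, ce, a2, -a4', hE, ?_, ha2, by rwa [neg_neg]⟩
  exact
    { num := hN
      c1_pos := h.c1_pos
      C1_pos := h.C1_pos
      C0_pos := h.C0_pos
      sys := by
        filter_upwards [hE] with k ⟨q, H, J, g, e⟩
        exact ⟨_, pfk_ok hc g (hsc1 _ _ _), e⟩
      a2_pos := hcs.trans_le ha2.1
      a4_ne := by have := hcs.trans_le ha4.1; exact neg_ne_zero.2 this.ne'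
      a2_lim := l2
      a4_lim := by simpa using l4.neg
      raw := pfk_raw hc hca hce h.c1_pos h.C1_pos h.C0_pos hE
      clo := fun cc CC hcc => pfk_clo hc hCav h hsc1 hE cc CC hcc
      bare := fun c' C' ε hc' hε => pfk_bare hc h hE c' C' ε hc' hε
      D_rad := fun cc CC hcc => pfk_D_rad hN hca hce h.c1_pos hcC h.C0_pos hsc1 hE cc CC hcc
      D_mass := fun cc CC hcc => pfk_D_mass hN hca hce h.c1_pos hcC h.C0_pos hsc1 hE cc CC hcc }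

/-- **PE Thm 5.1 (28)** from the imports `PfImpSc` (Lemma 5.3) and `PfImpCav` (Prop 4.1).      TEX[PE:prof:direct-profile] -/
theorem pfk_rig (c : P6C) (hc : c.Ok) (hSc : PfImpSc) (hCav : PfImpCav c) :
    ∃ cκ Cκ : ℝ, 0 < cκ ∧ cκ ≤ Cκ ∧ P6ImpDirect (fun n => skCPr n 1) c cκ Cκ := by
  obtain ⟨cs, Cs, hcs, hcC, hsc⟩ := pfk_sc_ok hSc (pfk_tau_pos hc)
  have hT : 0 < c.Tinf := by linarith [hc.T_gt]
  have hCs : 0 < Cs := hcs.trans_le hcC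
  have h0 := pfs_kappa_rng (a2 := cs) (a4 := -cs) (Cs := Cs) hcs hT ⟨le_rfl, hcC⟩ ⟨by rw [neg_neg], by rw [neg_neg]; exact hcC⟩
  refine ⟨c.Tinf * cs ^ 2 / (2 * Cs ^ 3), c.Tinf * Cs ^ 2 / (2 * cs ^ 3), by positivity, h0.1.trans h0.2, ?_⟩
  intro U D lam x r c1 C1 C0 h1 h2 h3 hseq hl hfam hmin hx hxl hax hnE hxe hreg
  have h : PfDir U c D lam x r c1 C1 C0 := ⟨h1, h2, h3, hseq, hl, hfam, hmin, hx, hxl, hax, hnE, hxe, hreg⟩
  obtain ⟨E, ca, ce, a2, a4, hE, hS, ha2, ha4⟩ := pfk_seq hc hCav hcs hsc h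
  have hk := pfs_kappa_rng hcs hT ha2 ha4
  refine ⟨c.Tinf * a4 ^ 2 / (2 * a2 ^ 3), hk.1, hk.2, fun v hv => ?_⟩
  refine (pfi_main hS v hv).congr' ?_
  filter_upwards [hE] with k ⟨q, H, J, g, e⟩
  rw [e]
  show q.r (x k * v) / x k = _
  rw [g.qr]

/-- **PE Lemma 5.5** from the same imports.      TEX[PE:prof:low-clock-linearization] -/
theorem pfk_rig_lin (c : P6C) (hc : c.Ok) (hSc : PfImpSc) (hCav : PfImpCav c) (U : Ultrafilter ℕ) (D : ℕ → P6D) (lam x : ℕ → ℝ) (r : ℕ → ℝ → ℝ)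
    (c1 C1 C0 : ℝ) (h : PfDir U c D lam x r c1 C1 C0) (Cb : ℝ) :
    ∃ CC : ℝ, ∀ᶠ k in U,
      (∀ t : ℝ, 0 ≤ t → t ≤ Cb * x k → |pfG (D k) (lam k) (r k) c.tau t - t / (D k).T| ≤ CC * x k ^ 3) ∧
      |pfM2 (D k).P.n ((D k).Pb (lam k) (r k)) ((D k).Ph (lam k) (r k)) c.tau 0 - 1 / (D k).T| ≤ CC * x k ^ 2 := by
  obtain ⟨cs, Cs, hcs, hcC, hsc⟩ := pfk_sc_ok hSc (pfk_tau_pos hc)
  obtain ⟨E, ca, ce, a2, a4, hE, hS, ha2, ha4⟩ := pfk_seq hc hCav hcs hsc h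
  obtain ⟨M1, hM1⟩ := pfi_lin hS |Cb|
  obtain ⟨M2, hM2⟩ := pfi_lin_slope hS
  refine ⟨max M1 |M2|, ?_⟩
  filter_upwards [hE, hM1, hM2] with k ⟨q, H, J, g, e⟩ hM1 hM2
  rw [e] at hM1 hM2
  rw [← g.qr]
  have hx := g.loc.x0
  have hT1 := g.T1
  have hT : 0 < (D k).T := by linarith
  constructor
  · intro t ht0 ht
    have hq : t / (D k).T ∈ Icc (0:ℝ) (|Cb| * x k) := by
      refine ⟨div_nonneg ht0 hT.le, ?_⟩
      rw [div_le_iff₀ hT]
      have h1 : Cb * x k ≤ |Cb| * x k := mul_le_mul_of_nonneg_right (le_abs_self _) hx.le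
      have h2 : 0 ≤ |Cb| * x k := mul_nonneg (abs_nonneg _) hx.le
      nlinarith
    have h1 := hM1 _ hq
    have h2 : (pfkSys (D k) (lam k) (x k) c.tau q H J).phy.Gm (t / (D k).T) = pfG (D k) (lam k) q.r c.tau t := by
      show pfGh (D k).P.n ((D k).Pb (lam k) q.r) ((D k).Ph (lam k) q.r) c.tau ((D k).T * (t / (D k).T)) = _
      rw [mul_div_cancel₀ _ hT.ne']
      rfl
    rw [h2] at h1
    exact h1.trans (mul_le_mul_of_nonneg_right (le_max_left _ _) (pow_nonneg hx.le 3))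
  · have h1 : |(D k).T * pfM2 (D k).P.n ((D k).Pb (lam k) q.r) ((D k).Ph (lam k) q.r) c.tau ((D k).T * 0) - 1| ≤ M2 * x k ^ 2 := hM2
    rw [mul_zero] at h1
    set m2 := pfM2 (D k).P.n ((D k).Pb (lam k) q.r) ((D k).Ph (lam k) q.r) c.tau 0 with hm2
    have e1 : m2 - 1 / (D k).T = ((D k).T * m2 - 1) / (D k).T := by field_simp
    rw [e1, abs_div, abs_of_pos hT, div_le_iff₀ hT]
    have h2 : M2 * x k ^ 2 ≤ max M1 |M2| * x k ^ 2 :=
      mul_le_mul_of_nonneg_right ((le_abs_self _).trans (le_max_right _ _)) (sq_nonneg _)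
    have h3 : 0 ≤ max M1 |M2| * x k ^ 2 := mul_nonneg ((abs_nonneg _).trans (le_max_right _ _)) (sq_nonneg _)
    nlinarith

end

end Claimed.Agent.R286
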