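import Claimed.Agent.R286.Prof.InstSc
import Claimed.Agent.R286.Prof.InstMain
import Claimed.Agent.R286.Exit.Cav
import Claimed.Agent.R286.Exit.CavOm
import Claimed.Agent.R286.Exit.CavGam
import Claimed.Agent.R286.Exit.ClkLip
import Claimed.Agent.R286.Sc.Contract

/-!
# Row 286 (S0533), PE Section 5, unit PROF, file InstCav: THE CAVITY CLOSURE IN THE VOCABULARY OF SEC 5      (owner helper98; prefix `pfv_`)      = block W4 of PE Sec 4 (223)

From the exits of PE Sec 4 in fixed-size form (`exit_cav`, `exit_cav_om`: closure against `cvGamC`, the limit along the chains of `Γ` of the scalar site) to `PfImpCav`, `PfImpCavOm` (Prof/Imports):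
ultrafilter frame, `Γ` = scalar library in variance time (`pfGh`).      TEX[PE:prop:cavity-closure] TEX[PE:prof:coordinate-closure]
* A. IDENTIFICATION of the two codings of the scalar clock: `cvKf n b h u = h u + b u S_u` (plain values; Cav/Defs) and `pfKu n b h u = h(u+) + b(u+) S_u` (right continuous; Prof/Defs):
     `pfv_S_rc` (`u ↦ S_u` is right continuous: `exit_clk_stat_pos`), `pfv_K_at` (`ghAt 1 cvKf (ghPosA u) = pfKu u`), `pfv_K_ae`, `pfv_alK_eq` (same mass profile).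
* B. THE BRIDGE `pfv_gam`: `cvGamC n b h (ghPosA u) = pfGh n b h τ (pfKu n b h u)`      (`exit_cav_gam` + `sc_x_S`).
* C. `pfv_eta`: "for all `ε` eventually" ⟹ "`η_k → 0`".
* D. `pfv_cav : PfImpCav c`, `pfv_cav_om : PfImpCavOm c`      (converter `pfk_step0` of helper166, `pfv_ep4` = (4) in O-form above `C0 x`, `pfv_K_top` = total clock below the horizon).
-/

set_option autoImplicit false

namespace Claimed.Agent.R286

open Filter Topology Set MeasureTheory Function Asymptotics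

noncomputable section

/-! ## A. the two codings of the scalar clock -/

section ident

variable {n : ℕ} {b h : ℝ → ℝ}

/-- `u ↦ c(u+)` is right continuous -/
theorem pfv_atA_rc {c : ℝ → ℝ} (hc : GhClk1 1 c) (u : ℝ) :
    Tendsto (fun v => ghAt 1 c (ghPosA v)) (𝓝[>] u) (𝓝 (ghAt 1 c (ghPosA u))) := by
  have e : (fun v => ghAt 1 c (ghPosA v)) = rightLim (ghClamp 1 c) := funext fun v => gh_os_at_posA 1 c v
  rw [e, gh_os_at_posA]
  have h1 := (gh_os_clamp_mono zero_le_one hc).stieltjesFunction.right_continuous u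
  exact (h1.mono Ioi_subset_Ici_self).tendsto

/-- `u ↦ S_u` is right continuous on `[0,1)` -/
theorem pfv_S_rc (hn : 0 < n) (hb : GhClk1 1 b) (hh : GhClk1 1 h) {u : ℝ} (h0 : 0 ≤ u) (h1 : u < 1) :
    Tendsto (fun v => skCS n 1 b h (ghPosA v)) (𝓝[>] u) (𝓝 (skCS n 1 b h (ghPosA u))) := by
  obtain ⟨C, hC⟩ := exit_clk_stat_pos (n := n) hn one_pos
  have hbd : ∀ᶠ v in 𝓝[>] u, |skCS n 1 b h (ghPosA v) - skCS n 1 b h (ghPosA u)|
      ≤ C * (|ghAt 1 b (ghPosA v) - ghAt 1 b (ghPosA u)| + |ghAt 1 h (ghPosA v) - ghAt 1 h (ghPosA u)|) := by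
    filter_upwards [Ioo_mem_nhdsGT h1] with v hv
    exact (hC b h ⟨hb, hh⟩ (ghPosA v) (ghPosA u) (gh_os_posA_ok (h0.trans hv.1.le) hv.2.le) (gh_os_posA_ok h0 h1.le) _ le_rfl).1
  have hz : Tendsto (fun v => C * (|ghAt 1 b (ghPosA v) - ghAt 1 b (ghPosA u)| + |ghAt 1 h (ghPosA v) - ghAt 1 h (ghPosA u)|))
      (𝓝[>] u) (𝓝 0) := by
    have t1 := ((pfv_atA_rc hb u).sub_const (ghAt 1 b (ghPosA u))).abs
    have t2 := ((pfv_atA_rc hh u).sub_const (ghAt 1 h (ghPosA u))).abs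
    have := (t1.add t2).const_mul C
    simpa using this
  rw [tendsto_iff_norm_sub_tendsto_zero]
  exact squeeze_zero' (Eventually.of_forall fun _ => norm_nonneg _) hbd hz

/-- the clock `cvKf`, read after the jump, is `pfKu` -/
theorem pfv_K_at (hn : 0 < n) (hb : GhClk1 1 b) (hh : GhClk1 1 h) {u : ℝ} (h0 : 0 ≤ u) (h1 : u ≤ 1) :
    ghAt 1 (cvKf n b h) (ghPosA u) = pfKu n b h u := by
  rcases h1.eq_or_lt with rfl | h1
  · rw [gh_os_at_top 1 _ zero_le_one]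
    unfold pfKu pfKp cvKf
    rw [gh_os_at_top 1 _ zero_le_one, gh_os_at_top 1 _ zero_le_one]
  · rw [gh_os_at_posA]
    apply rightLim_eq_of_tendsto
    have t1 := (gh_os_clamp_mono zero_le_one hh).tendsto_rightLim u
    have t2 := (gh_os_clamp_mono zero_le_one hb).tendsto_rightLim u
    have t3 := t1.add (t2.mul (pfv_S_rc hn hb hh h0 h1))
    have e : pfKu n b h u = rightLim (ghClamp 1 h) u + rightLim (ghClamp 1 b) u * skCS n 1 b h (ghPosA u) := by
      unfold pfKu pfKp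
      rw [gh_os_at_posA, gh_os_at_posA]
    rw [e]
    refine t3.congr' ?_
    filter_upwards [Ioo_mem_nhdsGT h1] with v hv
    have hv0 : ¬ v < 0 := not_lt.2 (h0.trans hv.1.le)
    unfold ghClamp cvKf
    rw [if_neg hv0, if_neg hv0, if_neg hv0, min_eq_left hv.2.le]

/-- the two codings agree off a countable set -/
theorem pfv_K_ae (hb : GhClk1 1 b) (hh : GhClk1 1 h) : ∀ᵐ v : ℝ, v ∈ Ioo (0:ℝ) 1 → cvKf n b h v = pfKu n b h v := by
  have mb := gh_os_clamp_mono zero_le_one hb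
  have mh := gh_os_clamp_mono zero_le_one hh
  filter_upwards [mb.countable_not_continuousAt.ae_notMem volume, mh.countable_not_continuousAt.ae_notMem volume] with v h1 h2 hv
  have c1 : ContinuousAt (ghClamp 1 b) v := by simpa using h1
  have c2 : ContinuousAt (ghClamp 1 h) v := by simpa using h2
  have e1 := mb.continuousWithinAt_Ioi_iff_rightLim_eq.1 c1.continuousWithinAt
  have e2 := mh.continuousWithinAt_Ioi_iff_rightLim_eq.1 c2.continuousWithinAt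
  have hv0 : ¬ v < 0 := not_lt.2 hv.1.le
  have f1 : ghClamp 1 b v = b v := by unfold ghClamp; rw [if_neg hv0, min_eq_left hv.2.le]
  have f2 : ghClamp 1 h v = h v := by unfold ghClamp; rw [if_neg hv0, min_eq_left hv.2.le]
  unfold pfKu pfKp cvKf
  rw [gh_os_at_posA, gh_os_at_posA, e1, e2, f1, f2]

/-- the two codings have the same mass profile -/
theorem pfv_alK_eq (hb : GhClk1 1 b) (hh : GhClk1 1 h) : scAlK 1 (cvKf n b h) = pfAl n b h := by
  funext t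
  unfold pfAl scAlK
  congr 1
  apply measure_congr
  rw [eventuallyEq_set]
  filter_upwards [pfv_K_ae (n := n) hb hh] with v hv
  constructor
  · rintro ⟨h1, h2⟩
    exact ⟨h1, by rw [← hv h1]; exact h2⟩
  · rintro ⟨h1, h2⟩
    exact ⟨h1, by rw [hv h1]; exact h2⟩

/-! ## B. the bridge -/

/-- **`Γ(K)` of the cavity section is `Γ` of the scalar library**, at the positions after the jumps -/
theorem pfv_gam (hn : 0 < n) (hb : GhClk1 1 b) (hh : GhClk1 1 h) {τ : ℝ} (hτ : 0 < τ) (hKτ : pfKu n b h 1 ≤ τ) {u : ℝ}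
    (h0 : 0 ≤ u) (h1 : u ≤ 1) : cvGamC n b h (ghPosA u) = pfGh n b h τ (pfKu n b h u) := by
  obtain ⟨-, hK, hG⟩ := exit_cav_gam n hn b h hb hh
  have e1 : cvKf n b h 1 = pfKu n b h 1 := by
    rw [← pfv_K_at hn hb hh zero_le_one le_rfl, gh_os_at_top 1 _ zero_le_one]
  rw [hG u h0 h1]
  unfold cvGamP
  rw [sc_x_S one_pos hτ hK (by rw [e1]; exact hKτ) (gh_os_posA_ok h0 h1), pfv_K_at hn hb hh h0 h1, pfv_alK_eq hb hh]
  rfl

end ident

/-! ## C. from "for all `ε` eventually" to "`η_k → 0`" -/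

/-- `Q k ε` monotone and closed in `ε`; if for every `ε > 0` it holds eventually, it holds eventually with some `η_k → 0` -/
theorem pfv_eta {l : Filter ℕ} {Q : ℕ → ℝ → Prop} (hmono : ∀ k ε ε', ε ≤ ε' → Q k ε → Q k ε')
    (hcl : ∀ k ε, (∀ ε', ε < ε' → Q k ε') → Q k ε) (hev : ∀ ε : ℝ, 0 < ε → ∀ᶠ k in l, Q k ε) :
    ∃ η : ℕ → ℝ, Tendsto η l (𝓝 0) ∧ (∀ k, 0 ≤ η k) ∧ ∀ᶠ k in l, Q k (η k) := by
  refine ⟨fun k => sInf {ε | 0 ≤ ε ∧ Q k ε}, ?_, fun k => Real.sInf_nonneg fun ε hε => hε.1, ?_⟩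
  · rw [tendsto_order]
    constructor
    · intro a ha
      exact Eventually.of_forall fun k => ha.trans_le (Real.sInf_nonneg fun ε hε => hε.1)
    · intro a ha
      filter_upwards [hev (a / 2) (by linarith)] with k hk
      have : sInf {ε | 0 ≤ ε ∧ Q k ε} ≤ a / 2 := csInf_le ⟨0, fun ε hε => hε.1⟩ ⟨by linarith, hk⟩
      linarith
  · filter_upwards [hev 1 one_pos] with k hk
    apply hcl
    intro ε' hε'
    obtain ⟨ε'', h1, h2⟩ := exists_lt_of_csInf_lt (s := {ε | 0 ≤ ε ∧ Q k ε}) ⟨1, zero_le_one, hk⟩ hε'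
    exact hmono k ε'' ε' h2.le h1.2

/-! ## D. the closure in the ultrafilter frame -/

section frame

variable {U : Ultrafilter ℕ} {c : P6C} {D : ℕ → P6D} {lam x : ℕ → ℝ} {r : ℕ → ℝ → ℝ} {c1 C1 C0 : ℝ}

/-- (4) in its O-form on the whole outer region -/
theorem pfv_ep4 (hc : c.Ok) (h : PfDir U c D lam x r c1 C1 C0) :
    ∀ᶠ k in U, ∀ u : ℝ, C0 * x k ≤ u → (D k).P.u0 < u → u < 1 →
      |(D k).b0 u - (D k).T| ≤ 1 * u ^ 2 ∧ |(D k).h0 u| ≤ 1 * u ^ 3 := by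
  have hN := pfk_num hc h
  obtain ⟨Ca, hCa, ha⟩ := pfi_a_le hN
  have hκ1 : (1:ℝ) ≤ max 1 (Ca / C0) := le_max_left _ _
  have hκ : 0 < max 1 (Ca / C0) := one_pos.trans_le hκ1
  filter_upwards [h.seq.ep4 (max 1 (Ca / C0)) 1 hκ1 one_pos, ha, h.x_pos] with k hk ha hx u h1 h2 h3
  have hu : 0 < u := (mul_pos h.C0_pos hx).trans_le h1
  refine hk u u ?_ h3.le h2 h3 (div_le_self hu.le hκ1) (le_mul_of_one_le_left hu.le hκ1)
  rw [div_le_iff₀ hκ]
  have e1 : Ca * x k = Ca / C0 * (C0 * x k) := by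
    field_simp [h.C0_pos.ne']
  calc (D k).P.a ≤ Ca * x k := ha
    _ = Ca / C0 * (C0 * x k) := e1
    _ ≤ Ca / C0 * u := mul_le_mul_of_nonneg_left h1 (div_pos hCa h.C0_pos).le
    _ ≤ max 1 (Ca / C0) * u := mul_le_mul_of_nonneg_right (le_max_right _ _) hu.le
    _ = u * max 1 (Ca / C0) := mul_comm _ _

/-- the total scalar clock is below the horizon -/
theorem pfv_K_top {D : P6D} {lam x : ℝ} {r : ℝ → ℝ} {ca ce : ℝ} {q : CmQ D.P} {H J : ℝ → ℝ} (hc : c.Ok)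
    (g : PfkGood c D lam x r ca ce c1 C1 C0 q H J) (hclk : P6Bd D.b0 D.h0 c.K) :
    pfKu D.P.n (D.Pb lam q.r) (D.Ph lam q.r) 1 ≤ c.tau := by
  have h1m : (1:ℝ) ∈ Icc (0:ℝ) 1 := ⟨zero_le_one, le_rfl⟩
  have hA := pfk_adm g
  have hn := pfk_n_pos g
  have hu1 : D.P.u0 ≤ 1 := by
    have : D.P.u0 ≤ 1 / 2 := g.std.ok.u01
    linarith
  have hS0 := pfs_S_nn hn hA.1 hA.2 h1m
  have hS1 : pfS D lam q.r 1 ≤ 1 := by
    have := (pfs_S_sq hn hA.1 hA.2 h1m).trans (pfs_B_le hn hA.1 hA.2 h1m)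
    nlinarith
  have hb0 : 0 ≤ D.Pb lam q.r 1 := by
    have := pfs_atA_nn hA.1 1
    rwa [gh_os_at_top 1 _ zero_le_one] at this
  have e : pfKu D.P.n (D.Pb lam q.r) (D.Ph lam q.r) 1 = D.Ph lam q.r 1 + D.Pb lam q.r 1 * pfS D lam q.r 1 := by
    unfold pfKu pfKp pfS
    rw [gh_os_at_top 1 _ zero_le_one, gh_os_at_top 1 _ zero_le_one]
  have he0 := cm_e_pos D.P g.std.lam0 (q.r 1)
  have hr1 := q.r_mem 1 ⟨hu1, le_rfl⟩
  have hb1 : D.Pb lam q.r 1 ≤ c.K - D.P.e lam (q.r 1) := by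
    unfold P6D.Pb
    rw [if_pos hu1]
    linarith [(abs_le.1 (hclk 1 h1m).1).2]
  have hh1 : D.Ph lam q.r 1 ≤ c.K + D.P.e lam (q.r 1) := by
    unfold P6D.Ph
    rw [if_pos hu1]
    have h3 : D.P.e lam (q.r 1) * q.r 1 ≤ D.P.e lam (q.r 1) := mul_le_of_le_one_right he0.le hr1.2
    linarith [(abs_le.1 (hclk 1 h1m).2).2]
  have h4 : D.Pb lam q.r 1 * pfS D lam q.r 1 ≤ D.Pb lam q.r 1 := mul_le_of_le_one_right hb0 hS1
  rw [e]
  unfold P6C.tau
  linarith [hc.T_gt]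

/-- **PE Prop 4.1 (22), modulus form, along the direct tests** -/
theorem pfv_cav (c : P6C) (hc : c.Ok) : PfImpCav c := by
  intro U D lam x r c1 C1 C0 h cb Cb hcb hcC
  have hN := pfk_num hc h
  obtain ⟨ca, ce, hca, hce, hg⟩ := pfk_step0 hc h
  obtain ⟨Cx, hCx, hxe⟩ := pfi_x2_le hN
  obtain ⟨K, θ, hK, hθ, -, H⟩ := exit_cav (mm := c.m) (cE := c.cE) (D0 := c.D0) (Tm := c.tau) (ca := ca) (ce := ce) (c := c1) (C := C1)
    (C0 := C0) (cd := Cx⁻¹) (C4 := 1) (c' := cb) (C' := Cb) hc.m_pos hc.cE_pos hc.D0_pos hca hce h.c1_pos (pfk_c1_le h) h.C0_pos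
    (inv_pos.2 hCx) one_pos hcb hcC
  have hev : ∀ ε : ℝ, 0 < ε → ∀ᶠ k in U, ∀ u : ℝ, cb * x k ≤ u → u ≤ Cb * x k → r k u ≤ Cb * x k →
      |pfS (D k) (lam k) (r k) u - pfG (D k) (lam k) (r k) c.tau (pfK (D k) (lam k) (r k) u)|
        ≤ K * x k ^ 3 * (ε + (pfDl (D k) (lam k) (r k) u / x k) ^ θ) := by
    intro ε hε
    obtain ⟨κ, n0, hκ, HH⟩ := H ε hε
    filter_upwards [hg, hxe, pfv_ep4 hc h, pfk_n_ge h.seq n0, pfk_u0_lt hN (lt_min hκ hcb), h.x_lim.eventually (gt_mem_nhds hκ),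
      pfk_mul_x_lt h.x_lim Cb one_pos, h.seq.clk] with k ⟨q, Hh, J, g⟩ hxe h4 hn hu0 hxκ hx1 hclk u hu1 hu2 hu3
    have hx := g.loc.x0
    have hA := pfk_adm g
    have hu0' : (D k).P.u0 ≤ u := (hu0.le.trans (mul_le_mul_of_nonneg_right (min_le_right _ _) hx.le)).trans hu1
    have hu01 : u ∈ Icc (0:ℝ) 1 := ⟨(mul_pos hcb hx).le.trans hu1, hu2.trans hx1.le⟩
    have hT2 : (D k).T ≤ c.tau := by
      have := hc.K_pos
      have := g.T2
      unfold P6C.tau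
      linarith
    have h5 := HH (pfkI (D k) (lam k) q) (x k) (D k).T g.std g.h0m g.m_eq g.loc hn
      (by rw [inv_mul_le_iff₀ hCx]; exact hxe) (hu0.le.trans (mul_le_mul_of_nonneg_right (min_le_left _ _) hx.le)) hxκ.le g.T1.le hT2 h4
      u hu1 hu2 hu0' hu01.2 (by show q.r u ≤ _; rw [g.qr]; exact hu3)
    have hcl : cmkCl u = u := by
      unfold cmkCl
      rw [min_eq_left hu01.2, max_eq_right hu01.1]
    have e1 : (pfkI (D k) (lam k) q).num.S u = pfS (D k) (lam k) q.r u := by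
      show skCS (D k).P.n 1 ((D k).Pb (lam k) q.r) ((D k).Ph (lam k) q.r) (ghPosA (cmkCl u)) = _
      rw [hcl]; rfl
    have e2 : (pfkI (D k) (lam k) q).num.D u = pfDl (D k) (lam k) q.r u := by
      show Real.sqrt (cmkD2 (D k).P.n ((D k).Pb (lam k) q.r) ((D k).Ph (lam k) q.r) (ghPosA (cmkCl u))) = _
      rw [hcl]; rfl
    have e3 : cvGamC (pfkI (D k) (lam k) q).P.n (pfkI (D k) (lam k) q).b (pfkI (D k) (lam k) q).h (ghPosA u)
        = pfG (D k) (lam k) q.r c.tau (pfK (D k) (lam k) q.r u) :=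
      pfv_gam (pfk_n_pos g) hA.1 hA.2 (pfk_tau_pos hc) (pfv_K_top hc g hclk) hu01.1 hu01.2
    rw [e1, e2, e3, g.qr] at h5
    exact h5
  have key := pfv_eta (l := (U : Filter ℕ))
    (Q := fun k ε => 0 < x k → ∀ u : ℝ, cb * x k ≤ u → u ≤ Cb * x k → r k u ≤ Cb * x k →
      |pfS (D k) (lam k) (r k) u - pfG (D k) (lam k) (r k) c.tau (pfK (D k) (lam k) (r k) u)|
        ≤ K * x k ^ 3 * (ε + (pfDl (D k) (lam k) (r k) u / x k) ^ θ))
    (by
      intro k ε ε' hεε hk hx u h1 h2 h3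
      exact (hk hx u h1 h2 h3).trans (mul_le_mul_of_nonneg_left (by linarith) (mul_nonneg hK.le (pow_nonneg hx.le 3))))
    (by
      intro k ε hk hx u h1 h2 h3
      apply le_of_forall_pos_le_add
      intro δ hδ
      have hp : 0 < K * x k ^ 3 := mul_pos hK (pow_pos hx 3)
      have := hk (ε + δ / (K * x k ^ 3)) (by linarith [div_pos hδ hp]) hx u h1 h2 h3
      refine this.trans (le_of_eq ?_)
      field_simp
      ring)
    (fun ε hε => (hev ε hε).mono fun k hk _ => hk)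
  obtain ⟨η, hη, -, hQ⟩ := key
  exact ⟨η, K, θ, hK, hθ, hη, by filter_upwards [hQ, h.x_pos] with k hk hx using hk hx⟩

/-- **PE Prop 4.1, omitted lower cuts, along the direct tests** -/
theorem pfv_cav_om (c : P6C) (hc : c.Ok) : PfImpCavOm c := by
  intro U D lam x r c1 C1 C0 h hW Cb
  have hN := pfk_num hc h
  obtain ⟨ca, ce, hca, hce, hg⟩ := pfk_step0 hc h
  obtain ⟨Cx, hCx, hxe⟩ := pfi_x2_le hN
  obtain ⟨Cw, hCw, hw⟩ := hW.exists_pos
  obtain ⟨K, κ, n0, hK, hκ, HH⟩ := exit_cav_om (mm := c.m) (cE := c.cE) (D0 := c.D0) (Tm := c.tau) (ca := ca) (ce := ce) (c := c1) (C := C1)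
    (C0 := C0) (cd := Cx⁻¹) (C4 := 1) (CW := max 1 (Real.sqrt Cw)) (C' := max 1 Cb) hc.m_pos hc.cE_pos hc.D0_pos hca hce h.c1_pos (pfk_c1_le h)
    h.C0_pos (inv_pos.2 hCx) one_pos (le_max_left _ _) (one_pos.trans_le (le_max_left _ _))
  refine ⟨K, ?_⟩
  filter_upwards [hg, hxe, pfv_ep4 hc h, pfk_n_ge h.seq n0, pfk_u0_lt hN hκ, h.x_lim.eventually (gt_mem_nhds hκ),
    pfk_mul_x_lt h.x_lim Cb one_pos, h.seq.clk, hw.bound] with k ⟨q, Hh, J, g⟩ hxe h4 hn hu0 hxκ hx1 hclk hw u hu1 hu2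
  have hx := g.loc.x0
  have hA := pfk_adm g
  have hu01 : u ∈ Icc (0:ℝ) 1 := ⟨hu1, hu2.trans hx1.le⟩
  have hT2 : (D k).T ≤ c.tau := by
    have := hc.K_pos
    have := g.T2
    unfold P6C.tau
    linarith
  have hWx : cmW (D k).P (lam k) (x k) ≤ max 1 (Real.sqrt Cw) * x k := by
    unfold cmW
    refine max_le (le_mul_of_one_le_left hx.le (le_max_left _ _)) ?_
    rw [Real.norm_eq_abs, Real.norm_eq_abs, abs_of_nonneg (sq_nonneg (x k))] at hw
    have h1 : (D k).P.e (lam k) (x k) ≤ Cw * x k ^ 2 := (le_abs_self _).trans hw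
    calc Real.sqrt ((D k).P.e (lam k) (x k)) ≤ Real.sqrt (Cw * x k ^ 2) := Real.sqrt_le_sqrt h1
      _ = Real.sqrt Cw * x k := by rw [Real.sqrt_mul hCw.le, Real.sqrt_sq hx.le]
      _ ≤ max 1 (Real.sqrt Cw) * x k := mul_le_mul_of_nonneg_right (le_max_right _ _) hx.le
  have h5 := HH (pfkI (D k) (lam k) q) (x k) (D k).T g.std g.h0m g.m_eq g.loc hn
    (by rw [inv_mul_le_iff₀ hCx]; exact hxe) hWx hu0.le hxκ.le g.T1.le hT2 h4
    (ghPosA u) (gh_os_posA_ok hu01.1 hu01.2) (hu2.trans (mul_le_mul_of_nonneg_right (le_max_right _ _) hx.le))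
  have e3 : cvGamC (pfkI (D k) (lam k) q).P.n (pfkI (D k) (lam k) q).b (pfkI (D k) (lam k) q).h (ghPosA u)
      = pfG (D k) (lam k) q.r c.tau (pfK (D k) (lam k) q.r u) :=
    pfv_gam (pfk_n_pos g) hA.1 hA.2 (pfk_tau_pos hc) (pfv_K_top hc g hclk) hu01.1 hu01.2
  rw [e3, g.qr] at h5
  rw [← g.qr] at h5 ⊢
  exact h5

end frame

end

end Claimed.Agent.R286
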