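import Claimed.Agent.R286.Pe6.Imports

/-!
# Row 286 (S0533), PE Section 5, unit PROF, file InstNum: THE SCALES OF A SMALL DIRECT TEST      (owner helper166; head helper98; prefix `pfi_`, types `Pfi*`)

Source: PE profile.tex l.17-36 (hypotheses of Thm 5.1), l.262-275, l.326-345 (regimes, cap widths), comparisons.tex l.28-75.      Model free: only `CmCall`, `cmF`, `cmP`, `P6Seq`.
`PfiNum U c D lam x` = the NUMERICAL hypotheses of `P6ImpDirect` (Pe6/Imports): a sequence of PE calls, strengths `0 < lam ≤ d²`, test scales `x → 0`, `a = O(x)`, `x² = O(e(x))`.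
PROVED here (all limits along the ultrafilter `U`):
* constants: `pfi_a_le` (`a ≤ Ca x`), `pfi_x2_le` (`x² ≤ Cx e(x)`), `pfi_x_le_d` (`x ≤ Cd d`), `pfi_mu_le` (taper argument `lam x/d³ ≤ Cμ`);
* `pfi_u0` (`u0/x → 0`), `pfi_us` (`u_*/x → 0`), `pfi_ell` (`ℓ/x → 0`, `ℓ = pfiEll P = n^{-δ} L log((1+u_*)/u_*) + rmin` = bound of all cap widths + wall), `pfi_floor` (`n^{-δ} u_*/x → 0`);
* `pfi_T` (the temperatures converge), `pfi_ep4` ((4) on the bands `c x ≤ u ≤ C x`);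
* `pfi_regime`: EITHER `lam/x² → ∞` (then `pfi_div_const`: `e = lam`, `p = 0` on `[0, C x]`, `pfi_div_ell`: `lam ℓ/x³ → 0`)
  OR `lam/x² → Λ > 0`, `lam x/d³ → μ ≥ 0` (then `pfi_bdd_e`, `pfi_bdd_p`: `e(x t)/x² → Λ f(μ t)`, `p(x t) → p(μ t)` uniformly on `[0,C]`, `pfi_bdd_p0`: `p(x t) = 0` for `t ≤ t0`).
-/

set_option autoImplicit false

namespace Claimed.Agent.R286

open Filter Topology Set MeasureTheory Asymptotics

noncomputable section

/-- the numerical hypotheses of PE Thm 5.1 for a sequence of PE calls -/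
structure PfiNum (U : Ultrafilter ℕ) (c : P6C) (D : ℕ → P6D) (lam x : ℕ → ℝ) : Prop where
  cok : c.Ok
  seq : P6Seq U c D
  lam_rng : ∀ᶠ k in U, 0 < lam k ∧ lam k ≤ (D k).P.d ^ 2
  x_pos : ∀ᶠ k in U, 0 < x k
  x_lim : Tendsto x U (𝓝 0)
  a_O : (fun k => (D k).P.a) =O[U] x
  x2_O : (fun k => x k ^ 2) =O[U] (fun k => (D k).P.e (lam k) (x k))

/-- bound of all cap widths, wall included -/
def pfiEll (P : CmCall) : ℝ := P.N ^ (-P.dl) * P.L * Real.log ((1 + P.us) / P.us) + P.rmin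

variable {U : Ultrafilter ℕ} {c : P6C} {D : ℕ → P6D} {lam x : ℕ → ℝ}

theorem pfi_a_le (h : PfiNum U c D lam x) : ∃ Ca : ℝ, 0 < Ca ∧ ∀ᶠ k in U, (D k).P.a ≤ Ca * x k := by
  obtain ⟨Ca, hCa, hb⟩ := h.a_O.exists_pos
  refine ⟨Ca, hCa, ?_⟩
  filter_upwards [hb.bound, h.x_pos] with k hk hx
  rw [Real.norm_eq_abs, Real.norm_eq_abs, abs_of_pos hx] at hk
  exact (le_abs_self _).trans hk

theorem pfi_x2_le (h : PfiNum U c D lam x) :
    ∃ Cx : ℝ, 0 < Cx ∧ ∀ᶠ k in U, x k ^ 2 ≤ Cx * (D k).P.e (lam k) (x k) := by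
  obtain ⟨Cx, hCx, hb⟩ := h.x2_O.exists_pos
  refine ⟨Cx, hCx, ?_⟩
  filter_upwards [hb.bound, h.lam_rng] with k hk hl
  rw [Real.norm_eq_abs, Real.norm_eq_abs, abs_of_pos (cm_e_pos _ hl.1 _)] at hk
  exact (le_abs_self _).trans hk

/-- `x² ≤ Cx lam` -/
theorem pfi_x2_le_lam (h : PfiNum U c D lam x) : ∃ Cx : ℝ, 0 < Cx ∧ ∀ᶠ k in U, x k ^ 2 ≤ Cx * lam k := by
  obtain ⟨Cx, hCx, hb⟩ := pfi_x2_le h
  refine ⟨Cx, hCx, ?_⟩
  filter_upwards [hb, h.lam_rng] with k hk hl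
  exact hk.trans (mul_le_mul_of_nonneg_left (cm_e_le _ hl.1.le _) hCx.le)

theorem pfi_x_le_d (h : PfiNum U c D lam x) : ∃ Cd : ℝ, 0 < Cd ∧ ∀ᶠ k in U, x k ≤ Cd * (D k).P.d := by
  obtain ⟨Cx, hCx, hb⟩ := pfi_x2_le_lam h
  refine ⟨Real.sqrt Cx, Real.sqrt_pos.mpr hCx, ?_⟩
  filter_upwards [hb, h.lam_rng, h.x_pos, h.seq.ok] with k hk hl hx ok
  have hd := ok.d0
  have h1 : x k ^ 2 ≤ (Real.sqrt Cx * (D k).P.d) ^ 2 := by
    rw [mul_pow, Real.sq_sqrt hCx.le]
    exact hk.trans (mul_le_mul_of_nonneg_left hl.2 hCx.le)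
  exact (pow_le_pow_iff_left₀ hx.le (by positivity) two_ne_zero).mp h1

theorem pfi_mu_le (h : PfiNum U c D lam x) :
    ∃ Cμ : ℝ, 0 < Cμ ∧ ∀ᶠ k in U, 0 ≤ lam k * x k / (D k).P.d ^ 3 ∧ lam k * x k / (D k).P.d ^ 3 ≤ Cμ := by
  obtain ⟨Cd, hCd, hb⟩ := pfi_x_le_d h
  refine ⟨Cd, hCd, ?_⟩
  filter_upwards [hb, h.lam_rng, h.x_pos, h.seq.ok] with k hk hl hx ok
  have hd := ok.d0
  refine ⟨by have := hl.1; positivity, ?_⟩
  rw [div_le_iff₀ (by positivity)]
  calc lam k * x k ≤ (D k).P.d ^ 2 * (Cd * (D k).P.d) := mul_le_mul hl.2 hk hx.le (by positivity)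
    _ = Cd * (D k).P.d ^ 3 := by ring

theorem pfi_u0 (h : PfiNum U c D lam x) : Tendsto (fun k => (D k).P.u0 / x k) U (𝓝 0) :=
  (h.seq.u0_small.trans_isBigO h.a_O).tendsto_div_nhds_zero

/-- negative powers of `n` tend to `0` -/
theorem pfi_Npow (h : PfiNum U c D lam x) {ε : ℝ} (hε : 0 < ε) : Tendsto (fun k => (D k).P.N ^ (-ε)) U (𝓝 0) :=
  (tendsto_rpow_neg_atTop hε).comp h.seq.n_top

/-- `n^{-ε} log n → 0` -/
theorem pfi_Nlog (h : PfiNum U c D lam x) {ε : ℝ} (hε : 0 < ε) :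
    Tendsto (fun k => (D k).P.N ^ (-ε) * (D k).P.Lam) U (𝓝 0) := by
  have h1 : Tendsto (fun y : ℝ => Real.log y / y ^ ε) atTop (𝓝 0) :=
    (isLittleO_log_rpow_atTop hε).tendsto_div_nhds_zero
  have h2 := h1.comp h.seq.n_top
  refine h2.congr' ?_
  filter_upwards [h.seq.ok] with k ok
  have hN := cm_N_pos ok
  simp only [Function.comp, CmCall.Lam]
  rw [Real.rpow_neg hN.le, div_eq_mul_inv, mul_comm]

/-- `δ` of the calls is the `δ` of the record -/
theorem pfi_dl (h : PfiNum U c D lam x) : ∀ᶠ k in U, (D k).P.dl = c.dl ∧ (D k).P.m = c.m := by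
  filter_upwards [h.seq.m_eq] with k hk
  exact ⟨by show (D k).P.m / 10000 = c.m / 10000; rw [hk], hk⟩

theorem pfi_c_dl_pos (h : PfiNum U c D lam x) : 0 < c.dl := by
  have := h.cok.m_pos
  show 0 < c.m / 10000
  positivity

theorem pfi_us (h : PfiNum U c D lam x) : Tendsto (fun k => (D k).P.us / x k) U (𝓝 0) := by
  obtain ⟨Ca, hCa, ha⟩ := pfi_a_le h
  have hcE := h.cok.cE_pos
  have hm := h.cok.m_pos
  have l1 : Tendsto (fun k => c.cE⁻¹ ^ 3 * Ca * (D k).P.N ^ (-(3 * c.m))) U (𝓝 0) := by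
    have := (pfi_Npow h (ε := 3 * c.m) (by positivity)).const_mul (c.cE⁻¹ ^ 3 * Ca)
    simpa using this
  refine squeeze_zero' ?_ ?_ l1
  · filter_upwards [h.seq.ok, h.x_pos] with k ok hx
    have := cm_us_pos hcE ok
    positivity
  · filter_upwards [h.seq.ok, h.x_pos, ha, pfi_dl h] with k ok hx ha hd
    have h1 := cm_us_a hcE ok
    rw [hd.2] at h1
    rw [div_le_iff₀ hx]
    have hN := cm_N_pos ok
    have h2 : c.cE⁻¹ ^ 3 * (D k).P.N ^ (-(3 * c.m)) * (D k).P.a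
        ≤ c.cE⁻¹ ^ 3 * (D k).P.N ^ (-(3 * c.m)) * (Ca * x k) :=
      mul_le_mul_of_nonneg_left ha (by positivity)
    calc (D k).P.us ≤ _ := h1
      _ ≤ _ := h2
      _ = _ := by ring

theorem pfi_floor (h : PfiNum U c D lam x) :
    Tendsto (fun k => (D k).P.N ^ (-(D k).P.dl) * (D k).P.us / x k) U (𝓝 0) := by
  refine squeeze_zero' ?_ ?_ (pfi_us h)
  · filter_upwards [h.seq.ok, h.x_pos] with k ok hx
    have := cm_us_pos h.cok.cE_pos ok
    have := cm_N_pos ok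
    positivity
  · filter_upwards [h.seq.ok, h.x_pos] with k ok hx
    have hus := cm_us_pos h.cok.cE_pos ok
    have hN : 1 ≤ (D k).P.N := by have := cm_N_ge ok; linarith
    have h1 : (D k).P.N ^ (-(D k).P.dl) ≤ 1 :=
      Real.rpow_le_one_of_one_le_of_nonpos hN (by have := cm_dl_pos ok; linarith)
    gcongr
    nlinarith

/-- `L ≤ a` -/
theorem pfi_L_le_a {P : CmCall} {cE D0 : ℝ} (hc : 0 < cE) (ok : P.Ok cE D0) : P.L ≤ P.a := by
  have ha := cm_a_pos hc ok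
  have hd := ok.d0
  have had := cm_a_le_d hc ok
  calc P.L ≤ P.a ^ 3 / P.d ^ 2 := min_le_right _ _
    _ ≤ P.a := by
      rw [div_le_iff₀ (by positivity)]
      have : P.a ^ 2 ≤ P.d ^ 2 := pow_le_pow_left₀ ha.le had 2
      nlinarith

/-- `ℓ ≤ n^{-δ} (C log n + 1) L` -/
theorem pfi_ell_le (h : PfiNum U c D lam x) :
    ∃ C : ℝ, 0 < C ∧ ∀ᶠ k in U, 0 ≤ pfiEll (D k).P ∧
      pfiEll (D k).P ≤ C * ((D k).P.N ^ (-c.dl) * (D k).P.Lam) * (D k).P.L := by
  obtain ⟨C, hC, hlog⟩ := cm_log_us (D0 := c.D0) h.cok.cE_pos h.cok.D0_pos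
  refine ⟨C + 1, by linarith, ?_⟩
  filter_upwards [h.seq.ok, pfi_dl h] with k ok hd
  have hcE := h.cok.cE_pos
  have hus := cm_us_pos hcE ok
  have hN := cm_N_pos ok
  have hL := cm_L_pos hcE ok
  have hLam := cm_Lam_ge_one ok
  have h1 := hlog _ ok 0 1 le_rfl zero_le_one le_rfl
  rw [zero_add] at h1
  have h2 := cm_rmin_le hcE ok
  have h0 : 0 ≤ Real.log ((1 + (D k).P.us) / (D k).P.us) :=
    Real.log_nonneg (by rw [le_div_iff₀ hus]; linarith)
  unfold pfiEll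
  rw [hd.1] at h2 ⊢
  have hNp : 0 < (D k).P.N ^ (-c.dl) := Real.rpow_pos_of_pos hN _
  refine ⟨by have := ok.r0; positivity, ?_⟩
  have e1 : (D k).P.N ^ (-c.dl) * (D k).P.L * Real.log ((1 + (D k).P.us) / (D k).P.us)
      ≤ (D k).P.N ^ (-c.dl) * (D k).P.L * (C * (D k).P.Lam) :=
    mul_le_mul_of_nonneg_left h1 (by positivity)
  have e2 : (D k).P.N ^ (-c.dl) * (D k).P.L ≤ (D k).P.N ^ (-c.dl) * (D k).P.L * (D k).P.Lam :=
    le_mul_of_one_le_right (by positivity) hLam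
  calc _ ≤ (D k).P.N ^ (-c.dl) * (D k).P.L * (C * (D k).P.Lam) + (D k).P.N ^ (-c.dl) * (D k).P.L * (D k).P.Lam := by
        linarith
    _ = _ := by ring

theorem pfi_ell (h : PfiNum U c D lam x) : Tendsto (fun k => pfiEll (D k).P / x k) U (𝓝 0) := by
  obtain ⟨C, hC, hb⟩ := pfi_ell_le h
  obtain ⟨Ca, hCa, ha⟩ := pfi_a_le h
  have l1 : Tendsto (fun k => C * Ca * ((D k).P.N ^ (-c.dl) * (D k).P.Lam)) U (𝓝 0) := by
    have := (pfi_Nlog h (pfi_c_dl_pos h)).const_mul (C * Ca)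
    simpa using this
  refine squeeze_zero' ?_ ?_ l1
  · filter_upwards [hb, h.x_pos] with k hk hx
    exact div_nonneg hk.1 hx.le
  · filter_upwards [hb, h.x_pos, ha, h.seq.ok] with k hk hx ha ok
    rw [div_le_iff₀ hx]
    have hN := cm_N_pos ok
    have hLam := cm_Lam_ge_one ok
    have hLa := (pfi_L_le_a h.cok.cE_pos ok).trans ha
    have hNp : 0 < (D k).P.N ^ (-c.dl) := Real.rpow_pos_of_pos hN _
    calc pfiEll (D k).P ≤ C * ((D k).P.N ^ (-c.dl) * (D k).P.Lam) * (D k).P.L := hk.2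
      _ ≤ C * ((D k).P.N ^ (-c.dl) * (D k).P.Lam) * (Ca * x k) :=
        mul_le_mul_of_nonneg_left hLa (by positivity)
      _ = _ := by ring

theorem pfi_T (h : PfiNum U c D lam x) : Tendsto (fun k => (D k).T) U (𝓝 c.Tinf) := h.seq.T_lim

theorem pfi_T_pos (h : PfiNum U c D lam x) : ∀ᶠ k in U, 1 < (D k).T ∧ (D k).T < c.Tinf + 1 :=
  (h.seq.T_lim.eventually (lt_mem_nhds h.cok.T_gt)).and (h.seq.T_lim.eventually (gt_mem_nhds (by linarith)))

/-- (4) on the band `c' x ≤ u ≤ C' x` -/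
theorem pfi_ep4 (h : PfiNum U c D lam x) (c' C' ε : ℝ) (hc' : 0 < c') (hε : 0 < ε) :
    ∀ᶠ k in U, ∀ u : ℝ, (D k).P.u0 < u → u < 1 → c' * x k ≤ u → u ≤ C' * x k →
      |(D k).b0 u - (D k).T| ≤ ε * x k ^ 2 ∧ |(D k).h0 u| ≤ ε * x k ^ 3 := by
  obtain ⟨Ca, hCa, ha⟩ := pfi_a_le h
  set κ := max 1 (max Ca (max c'⁻¹ C')) with hκ
  have k1 : 1 ≤ κ := le_max_left _ _
  have k2 : Ca ≤ κ := (le_max_left _ _).trans (le_max_right _ _)
  have k3 : c'⁻¹ ≤ κ := (le_max_left _ _).trans ((le_max_right _ _).trans (le_max_right _ _))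
  have k4 : C' ≤ κ := (le_max_right _ _).trans ((le_max_right _ _).trans (le_max_right _ _))
  have hκ0 : 0 < κ := by linarith
  have hx1 : ∀ᶠ k in U, x k ≤ 1 := h.x_lim.eventually (ge_mem_nhds one_pos)
  filter_upwards [h.seq.ep4 κ ε k1 hε, ha, h.x_pos, hx1] with k hk ha hx hx1 u hu0 hu1 hcu hCu
  refine hk (x k) u ?_ hx1 hu0 hu1 ?_ ?_
  · rw [div_le_iff₀ hκ0]
    calc (D k).P.a ≤ Ca * x k := ha
      _ ≤ κ * x k := mul_le_mul_of_nonneg_right k2 hx.le
      _ = x k * κ := mul_comm _ _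
  · rw [div_le_iff₀ hκ0]
    have : x k = c'⁻¹ * (c' * x k) := by field_simp
    calc x k = c'⁻¹ * (c' * x k) := this
      _ ≤ κ * u := mul_le_mul k3 hcu (by positivity) hκ0.le
      _ = u * κ := mul_comm _ _
  · exact hCu.trans (mul_le_mul_of_nonneg_right k4 hx.le)

/-! ## the two regimes -/

theorem pfi_regime (h : PfiNum U c D lam x) :
    Tendsto (fun k => lam k / x k ^ 2) U atTop ∨
    ∃ Λ μ : ℝ, 0 < Λ ∧ 0 ≤ μ ∧ Tendsto (fun k => lam k / x k ^ 2) U (𝓝 Λ) ∧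
      Tendsto (fun k => lam k * x k / (D k).P.d ^ 3) U (𝓝 μ) := by
  obtain ⟨Cx, hCx, hb⟩ := pfi_x2_le_lam h
  obtain ⟨Cμ, hCμ, hm⟩ := pfi_mu_le h
  have hlow : ∀ᶠ k in U, Cx⁻¹ ≤ lam k / x k ^ 2 := by
    filter_upwards [hb, h.x_pos] with k hk hx
    rw [le_div_iff₀ (by positivity), inv_mul_le_iff₀ hCx]
    exact hk
  rcases aq_ultra_lim_or_infty U (fun k => lam k / x k ^ 2) with ⟨Λ, hΛ⟩ | h1 | h1
  · right
    obtain ⟨μ, hμ, hl⟩ := aq_ultra_lim_Icc U (f := fun k => lam k * x k / (D k).P.d ^ 3) (a := 0) (b := Cμ) hm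
    have hΛ0 : Cx⁻¹ ≤ Λ := ge_of_tendsto hΛ hlow
    exact ⟨Λ, μ, lt_of_lt_of_le (by positivity) hΛ0, hμ.1, hΛ, hl⟩
  · exact Or.inl h1
  · exfalso
    obtain ⟨k, hk1, hk2⟩ := ((tendsto_atBot.1 h1 0).and hlow).exists
    have : 0 < Cx⁻¹ := by positivity
    linarith

/-- diverging strength: the profile is constant on every compact rescaled radius interval -/
theorem pfi_div_const (h : PfiNum U c D lam x) (hdiv : Tendsto (fun k => lam k / x k ^ 2) U atTop) (C : ℝ) :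
    ∀ᶠ k in U, ∀ t, 0 ≤ t → t ≤ C → (D k).P.e (lam k) (x k * t) = lam k ∧ (D k).P.pp (lam k) (x k * t) = 0 := by
  filter_upwards [tendsto_atTop.1 hdiv (C ^ 2), h.lam_rng, h.x_pos, h.seq.ok] with k hk hl hx ok t ht0 htC
  have hd := ok.d0
  rw [le_div_iff₀ (by positivity)] at hk
  have h1 : (x k * t) ^ 2 ≤ (D k).P.d ^ 2 := by
    have : t ^ 2 ≤ C ^ 2 := pow_le_pow_left₀ ht0 htC 2
    calc (x k * t) ^ 2 = t ^ 2 * x k ^ 2 := by ring
      _ ≤ C ^ 2 * x k ^ 2 := mul_le_mul_of_nonneg_right this (by positivity)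
      _ ≤ lam k := hk
      _ ≤ _ := hl.2
  have h2 : x k * t ≤ (D k).P.d := (pow_le_pow_iff_left₀ (by positivity) hd.le two_ne_zero).mp h1
  have harg : lam k * (x k * t) / (D k).P.d ^ 3 ≤ 1 := by
    rw [div_le_one (by positivity)]
    calc lam k * (x k * t) ≤ (D k).P.d ^ 2 * (D k).P.d := mul_le_mul hl.2 h2 (by positivity) (by positivity)
      _ = (D k).P.d ^ 3 := by ring
  exact ⟨by simp [CmCall.e, cm_f_of_le harg], cm_pp_of_le _ harg⟩

/-- `lam ℓ/x³ → 0` (both regimes) -/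
theorem pfi_lam_ell (h : PfiNum U c D lam x) :
    Tendsto (fun k => lam k / x k ^ 2 * (pfiEll (D k).P / x k)) U (𝓝 0) := by
  obtain ⟨C, hC, hb⟩ := pfi_ell_le h
  obtain ⟨Ca, hCa, ha⟩ := pfi_a_le h
  have l1 : Tendsto (fun k => C * Ca ^ 3 * ((D k).P.N ^ (-c.dl) * (D k).P.Lam)) U (𝓝 0) := by
    have := (pfi_Nlog h (pfi_c_dl_pos h)).const_mul (C * Ca ^ 3)
    simpa using this
  refine squeeze_zero' ?_ ?_ l1
  · filter_upwards [hb, h.x_pos, h.lam_rng] with k hk hx hl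
    have := hk.1
    have := hl.1
    positivity
  · filter_upwards [hb, h.x_pos, ha, h.seq.ok, h.lam_rng] with k hk hx ha ok hl
    have hN := cm_N_pos ok
    have hLam := cm_Lam_ge_one ok
    have hd := ok.d0
    have ha0 := cm_a_pos h.cok.cE_pos ok
    have hNp : 0 < (D k).P.N ^ (-c.dl) := Real.rpow_pos_of_pos hN _
    have hL : lam k * (D k).P.L ≤ (Ca * x k) ^ 3 := by
      have h1 : (D k).P.L ≤ (D k).P.a ^ 3 / (D k).P.d ^ 2 := min_le_right _ _
      have h2 : lam k * (D k).P.L ≤ (D k).P.d ^ 2 * ((D k).P.a ^ 3 / (D k).P.d ^ 2) :=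
        mul_le_mul hl.2 h1 (cm_L_pos h.cok.cE_pos ok).le (by positivity)
      have h3 : (D k).P.d ^ 2 * ((D k).P.a ^ 3 / (D k).P.d ^ 2) = (D k).P.a ^ 3 := by field_simp
      rw [h3] at h2
      exact h2.trans (pow_le_pow_left₀ ha0.le ha 3)
    have e1 : lam k / x k ^ 2 * (pfiEll (D k).P / x k) = lam k * pfiEll (D k).P / x k ^ 3 := by
      field_simp
    rw [e1, div_le_iff₀ (by positivity)]
    calc lam k * pfiEll (D k).P ≤ lam k * (C * ((D k).P.N ^ (-c.dl) * (D k).P.Lam) * (D k).P.L) :=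
          mul_le_mul_of_nonneg_left hk.2 hl.1.le
      _ = C * ((D k).P.N ^ (-c.dl) * (D k).P.Lam) * (lam k * (D k).P.L) := by ring
      _ ≤ C * ((D k).P.N ^ (-c.dl) * (D k).P.Lam) * (Ca * x k) ^ 3 :=
          mul_le_mul_of_nonneg_left hL (by positivity)
      _ = _ := by ring

/-- the profile `f` is `1`-Lipschitz -/
theorem pfi_f_lip (a b : ℝ) : |cmF a - cmF b| ≤ |a - b| := by
  have hb : ∀ t : ℝ, ‖deriv cmF t‖ ≤ 1 := by
    intro t
    rw [cm_f_deriv, norm_neg, Real.norm_eq_abs]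
    rcases le_or_gt t 1 with ht | ht
    · rw [cm_p_of_le ht]; simp
    · have h0 : 0 < t := by linarith
      have h1 := cm_p_nonneg t
      have h2 := (cm_p_lt_one t).le
      have h3 := (cm_f_pos t).le
      have h4 := cm_f_le_one t
      rw [abs_of_nonneg (by positivity), div_le_one h0]
      nlinarith
  have := Convex.norm_image_sub_le_of_norm_deriv_le (f := cmF) (s := univ) (C := 1)
    (fun t _ => cm_f_differentiable t) (fun t _ => hb t) convex_univ (mem_univ b) (mem_univ a)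
  simpa [Real.norm_eq_abs] using this

/-- the slope `p` is `1`-Lipschitz -/
theorem pfi_p_lip (a b : ℝ) : |cmP a - cmP b| ≤ |a - b| := by
  have key : ∀ a b : ℝ, a ≤ b → cmP b - cmP a ≤ b - a := by
    intro a b hab
    have ea := cm_p_gap_eq a
    have eb := cm_p_gap_eq b
    set A := max a 1 with hA
    set B := max b 1 with hB
    have hA1 : 1 ≤ A := le_max_right _ _
    have hAB : A ≤ B := max_le_max_right 1 hab
    have hBA : B - A ≤ b - a := by
      rcases le_total a 1 with h1 | h1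
      · rcases le_total b 1 with h2 | h2
        · rw [hA, hB, max_eq_right h1, max_eq_right h2]; linarith
        · rw [hA, hB, max_eq_right h1, max_eq_left h2]; linarith
      · rw [hA, hB, max_eq_left h1, max_eq_left (h1.trans hab)]
    have lA := Real.log_nonneg hA1
    have lB := Real.log_nonneg (hA1.trans hAB)
    have hlog : Real.log B - Real.log A ≤ B - A := by
      rw [← Real.log_div (by linarith) (by linarith)]
      have h1 := Real.log_le_sub_one_of_pos (x := B / A) (by apply div_pos <;> linarith)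
      have h2 : B / A - 1 ≤ B - A := by
        rw [div_sub_one (by linarith), div_le_iff₀ (by linarith)]
        nlinarith
      linarith
    have hl0 : 0 ≤ Real.log B - Real.log A := sub_nonneg.mpr (Real.log_le_log (by linarith) hAB)
    have e : cmP b - cmP a = (Real.log B - Real.log A) / ((1 + Real.log A) * (1 + Real.log B)) := by
      have : cmP b - cmP a = (1 - cmP a) - (1 - cmP b) := by ring
      rw [this, ea, eb]
      field_simp
      ring
    rw [e]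
    have hden : 1 ≤ (1 + Real.log A) * (1 + Real.log B) := by nlinarith
    calc _ ≤ Real.log B - Real.log A := div_le_self hl0 hden
      _ ≤ b - a := by linarith
  rcases le_total a b with hab | hab
  · rw [abs_sub_comm, abs_of_nonneg (sub_nonneg.mpr (cm_p_mono hab)), abs_sub_comm,
      abs_of_nonneg (sub_nonneg.mpr hab)]
    exact key a b hab
  · rw [abs_of_nonneg (sub_nonneg.mpr (cm_p_mono hab)), abs_of_nonneg (sub_nonneg.mpr hab)]
    exact key b a hab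

/-- bounded strength: the rescaled strength profile converges uniformly on compacts -/
theorem pfi_bdd_e {Λ μ : ℝ} (hΛ : Tendsto (fun k => lam k / x k ^ 2) U (𝓝 Λ))
    (hμ : Tendsto (fun k => lam k * x k / (D k).P.d ^ 3) U (𝓝 μ)) (C : ℝ) :
    TendstoUniformlyOn (fun k t => (D k).P.e (lam k) (x k * t) / x k ^ 2) (fun t => Λ * cmF (μ * t)) U (Icc 0 C) := by
  rw [Metric.tendstoUniformlyOn_iff]
  intro ε hε
  have l1 : Tendsto (fun k => |lam k / x k ^ 2 - Λ| + |Λ| * (|lam k * x k / (D k).P.d ^ 3 - μ| * |C|)) U (𝓝 0) := by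
    have a1 := (hΛ.sub_const Λ).abs
    have a2 := (((hμ.sub_const μ).abs).mul_const |C|).const_mul |Λ|
    have := a1.add a2
    simpa using this
  filter_upwards [l1.eventually (gt_mem_nhds hε)] with k hk t ht
  rw [Real.dist_eq, abs_sub_comm]
  refine lt_of_le_of_lt ?_ hk
  have e1 : (D k).P.e (lam k) (x k * t) / x k ^ 2 = lam k / x k ^ 2 * cmF (lam k * x k / (D k).P.d ^ 3 * t) := by
    unfold CmCall.e
    have : lam k * (x k * t) / (D k).P.d ^ 3 = lam k * x k / (D k).P.d ^ 3 * t := by ring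
    rw [this]; ring
  rw [e1]
  set Lk := lam k / x k ^ 2
  set mk := lam k * x k / (D k).P.d ^ 3
  have e2 : Lk * cmF (mk * t) - Λ * cmF (μ * t) = (Lk - Λ) * cmF (mk * t) + Λ * (cmF (mk * t) - cmF (μ * t)) := by ring
  rw [e2]
  refine (abs_add_le _ _).trans (add_le_add ?_ ?_)
  · rw [abs_mul, abs_of_pos (cm_f_pos _)]
    exact mul_le_of_le_one_right (abs_nonneg _) (cm_f_le_one _)
  · rw [abs_mul]
    refine mul_le_mul_of_nonneg_left ?_ (abs_nonneg _)
    refine (pfi_f_lip _ _).trans ?_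
    rw [← sub_mul, abs_mul]
    refine mul_le_mul_of_nonneg_left ?_ (abs_nonneg _)
    rw [abs_of_nonneg ht.1]
    exact ht.2.trans (le_abs_self _)

theorem pfi_bdd_p {μ : ℝ}
    (hμ : Tendsto (fun k => lam k * x k / (D k).P.d ^ 3) U (𝓝 μ)) (C : ℝ) :
    TendstoUniformlyOn (fun k t => (D k).P.pp (lam k) (x k * t)) (fun t => cmP (μ * t)) U (Icc 0 C) := by
  rw [Metric.tendstoUniformlyOn_iff]
  intro ε hε
  have l1 : Tendsto (fun k => |lam k * x k / (D k).P.d ^ 3 - μ| * |C|) U (𝓝 0) := by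
    have := ((hμ.sub_const μ).abs).mul_const |C|
    simpa using this
  filter_upwards [l1.eventually (gt_mem_nhds hε)] with k hk t ht
  rw [Real.dist_eq, abs_sub_comm]
  refine lt_of_le_of_lt ?_ hk
  have e1 : (D k).P.pp (lam k) (x k * t) = cmP (lam k * x k / (D k).P.d ^ 3 * t) := by
    unfold CmCall.pp
    have : lam k * (x k * t) / (D k).P.d ^ 3 = lam k * x k / (D k).P.d ^ 3 * t := by ring
    rw [this]
  rw [e1]
  refine (pfi_p_lip _ _).trans ?_
  rw [← sub_mul, abs_mul]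
  refine mul_le_mul_of_nonneg_left ?_ (abs_nonneg _)
  rw [abs_of_nonneg ht.1]
  exact ht.2.trans (le_abs_self _)

/-- the slope vanishes on a fixed rescaled neighbourhood of `0` (both regimes) -/
theorem pfi_p0 (h : PfiNum U c D lam x) :
    ∃ t0 : ℝ, 0 < t0 ∧ ∀ᶠ k in U, ∀ t, 0 ≤ t → t ≤ t0 →
      (D k).P.pp (lam k) (x k * t) = 0 ∧ (D k).P.e (lam k) (x k * t) = lam k := by
  obtain ⟨Cμ, hCμ, hm⟩ := pfi_mu_le h
  refine ⟨Cμ⁻¹, by positivity, ?_⟩
  filter_upwards [hm] with k hk t ht0 ht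
  have harg : lam k * (x k * t) / (D k).P.d ^ 3 ≤ 1 := by
    have : lam k * (x k * t) / (D k).P.d ^ 3 = lam k * x k / (D k).P.d ^ 3 * t := by ring
    rw [this]
    calc _ ≤ Cμ * Cμ⁻¹ := mul_le_mul hk.2 ht ht0 hCμ.le
      _ = 1 := by field_simp
  exact ⟨cm_pp_of_le _ harg, by simp [CmCall.e, cm_f_of_le harg]⟩

/-- on every compact rescaled radius interval `1 - p` is bounded below (both regimes) -/
theorem pfi_p_gap (h : PfiNum U c D lam x) (C : ℝ) :
    ∃ cp : ℝ, 0 < cp ∧ ∀ᶠ k in U, ∀ t, t ≤ C → cp ≤ 1 - (D k).P.pp (lam k) (x k * t) := by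
  obtain ⟨Cμ, hCμ, hm⟩ := pfi_mu_le h
  have hT : (1:ℝ) ≤ 1 + Cμ * |C| := by have := abs_nonneg C; nlinarith
  refine ⟨1 / (1 + Real.log (1 + Cμ * |C|)), by have := Real.log_nonneg hT; positivity, ?_⟩
  filter_upwards [hm] with k hk t ht
  unfold CmCall.pp
  refine cm_p_gap_of_le ?_ hT
  have : lam k * (x k * t) / (D k).P.d ^ 3 = lam k * x k / (D k).P.d ^ 3 * t := by ring
  rw [this]
  have h1 : lam k * x k / (D k).P.d ^ 3 * t ≤ lam k * x k / (D k).P.d ^ 3 * |C| :=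
    mul_le_mul_of_nonneg_left (ht.trans (le_abs_self _)) hk.1
  have h2 : lam k * x k / (D k).P.d ^ 3 * |C| ≤ Cμ * |C| := mul_le_mul_of_nonneg_right hk.2 (abs_nonneg _)
  linarith

end

end Claimed.Agent.R286
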