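import Claimed.Agent.R286.Prof.Imports
import Claimed.Agent.R286.Prof.InstNum
import Claimed.Agent.R286.Exit.RigLin
import Claimed.Agent.R286.Exit.CmpRaw
import Claimed.Agent.R286.Exit.ClkStat
import Claimed.Agent.R286.Exit.Cav
import Claimed.Agent.R286.Exit.CavOm
import Claimed.Agent.R286.Exit.GamBrg
import Claimed.Agent.R286.Brg.Osc

/-!
# Row 286 (S0533), Prof/FromCav : CONVERTER (U-frame -> fixed size) AND THE EXITS OF PE Sec. 4 IN THE U-FRAME (W4)      (owner helper256; prefix `pfc_`; 0 own sorry)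

PE Sec. 3, 4 state their exits at FIXED SIZE, constants before the instance `I : CmI` (`Exit/Cmp*`, `Exit/Cav`, `Exit/CavOm`);   PE Sec. 5, 6, 7 work along an ultrafilter with sequences `D k : P6D` (`PfDir`, Prof/Defs).
* `PfcAt c D lam x r ca ce cd c1 C1 C0 I`      the instance `I` is the term `(D, lam, x, r)`: same call, strength, endpoint, quantile, changed clocks; `I.Std c.cE c.D0 c.tau`, `I.Loc ca ce c1 C1 C0 x`, `h0` monotone, `m = c.m`,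
                                               `cd x² ≤ e(x)`, (4) in O-form with constant `1` above `C0 x`, `1 ≤ T ≤ c.tau`, admissible changed path, `K(1) ≤ b(1) + h(1) ≤ c.tau`.
* **`pfc_inst`**      `PfDir U c D lam x r c1 C1 C0 ⟹ ∃ ca ce cd > 0, ∀ᶠ k in U, ∃ I, PfcAt ..`      (ALL hypotheses of `exit_cmp_raw`, `exit_cmp_dir*`, `exit_cav`, `exit_cav_om` which come before their thresholds)
* `pfc_small`         the thresholds: `∀ κ > 0, n0 : ∀ᶠ k, u0 ≤ κ x ∧ x ≤ κ ∧ n0 ≤ n`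
* `pfc_S_le`, `pfc_K_le`, `pfc_low`      (12) at `l = 1`: `S_p ≤ K (u + x)`;   `0 ≤ K_p ≤ CK x` on the low band;   (31), first assertion, for ANY direct test with `e(x) = O(x²)`
* **`pfc_cav_om : c.Ok → PfImpCavOm c`**, **`pfc_cav : c.Ok → PfImpCav c`**      from `exit_cav_om`, `exit_cav` and the bridge `exit_gam_brg`
-/

set_option autoImplicit false

namespace Claimed.Agent.R286

open Filter Topology Set MeasureTheory Asymptotics

noncomputable section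

/-! ## the converter -/

/-- the fixed size instance `I : CmI` (vocabulary of PE Sec. 3, 4) attached to one term `(D, lam, x, r)` of a direct test (vocabulary of PE Sec. 5, 6, 7) -/
structure PfcAt (c : P6C) (D : P6D) (lam x : ℝ) (r : ℝ → ℝ) (ca ce cd c1 C1 C0 : ℝ) (I : CmI) : Prop where
  eP : I.P = D.P
  el : I.lam = lam
  eb0 : I.b0 = D.b0
  eh0 : I.h0 = D.h0
  er : I.q.r = r
  eb : I.b = D.Pb lam r
  eh : I.h = D.Ph lam r
  std : I.Std c.cE c.D0 c.tau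
  loc : I.Loc ca ce c1 C1 C0 x
  mono : MonotoneOn I.h0 (Icc I.P.u0 1)
  m : I.P.m = c.m
  xe : cd * x ^ 2 ≤ I.P.e I.lam x
  ep4 : ∀ u : ℝ, C0 * x ≤ u → I.P.u0 < u → u < 1 → |I.b0 u - D.T| ≤ 1 * u ^ 2 ∧ |I.h0 u| ≤ 1 * u ^ 3
  T1 : 1 ≤ D.T
  T2 : D.T ≤ c.tau
  adm : CkAdm 1 (D.Pb lam r) (D.Ph lam r)
  n0 : 0 < D.P.n
  top : D.Pb lam r 1 + D.Ph lam r 1 ≤ c.tau
  cC : c1 ≤ C1

variable {U : Ultrafilter ℕ} {c : P6C} {D : ℕ → P6D} {lam x : ℕ → ℝ} {r : ℕ → ℝ → ℝ} {c1 C1 C0 : ℝ}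

theorem pfc_num (hc : c.Ok) (h : PfDir U c D lam x r c1 C1 C0) : PfiNum U c D lam x :=
  ⟨hc, h.seq, h.lam_rng, h.x_pos, h.x_lim, h.ax, h.xe⟩

theorem pfc_tau_pos (hc : c.Ok) : 0 < c.tau := by
  unfold P6C.tau
  linarith [hc.K_pos, hc.T_gt]

/-- `n E² ≤ Ce e(x) x²` -/
theorem pfc_nE_le (h : PfDir U c D lam x r c1 C1 C0) :
    ∃ Ce : ℝ, 0 < Ce ∧ ∀ᶠ k in U, (D k).P.N * (D k).P.E ^ 2 ≤ Ce * ((D k).P.e (lam k) (x k) * x k ^ 2) := by
  obtain ⟨Ce, hCe, hb⟩ := h.nE.exists_pos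
  refine ⟨Ce, hCe, ?_⟩
  filter_upwards [hb.bound, h.lam_rng, h.x_pos] with k hk hl hx
  rw [Real.norm_eq_abs, Real.norm_eq_abs, abs_of_pos (mul_pos (cm_e_pos _ hl.1 _) (pow_pos hx 2))] at hk
  exact (le_abs_self _).trans hk

/-- the smallness conditions which the fixed size exits ask after their constants -/
theorem pfc_small (hc : c.Ok) (h : PfDir U c D lam x r c1 C1 C0) {κ : ℝ} (hκ : 0 < κ) (n0 : ℕ) :
    ∀ᶠ k in U, (D k).P.u0 ≤ κ * x k ∧ x k ≤ κ ∧ n0 ≤ (D k).P.n := by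
  have h1 := pfi_u0 (pfc_num hc h)
  have h2 : ∀ᶠ k in U, (D k).P.u0 / x k < κ := h1.eventually (gt_mem_nhds hκ)
  have h3 : ∀ᶠ k in U, x k < κ := h.x_lim.eventually (gt_mem_nhds hκ)
  have h4 : ∀ᶠ k in U, (n0 : ℝ) ≤ (D k).P.N := h.seq.n_top.eventually (eventually_ge_atTop _)
  filter_upwards [h2, h3, h4, h.x_pos] with k a2 a3 a4 hx
  refine ⟨?_, a3.le, ?_⟩
  · rw [div_lt_iff₀ hx] at a2; exact a2.le
  · unfold CmCall.N at a4; exact_mod_cast a4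

/-- **THE CONVERTER**: along a direct test, eventually every term is a fixed size instance with FIXED constants -/
theorem pfc_inst (hc : c.Ok) (h : PfDir U c D lam x r c1 C1 C0) :
    ∃ ca ce cd : ℝ, 0 < ca ∧ 0 < ce ∧ 0 < cd ∧
      ∀ᶠ k in U, ∃ I : CmI, PfcAt c (D k) (lam k) (x k) (r k) ca ce cd c1 C1 C0 I := by
  have hN := pfc_num hc h
  obtain ⟨Ca, hCa, ha⟩ := pfi_a_le hN
  obtain ⟨Cx, hCx, hx2⟩ := pfi_x2_le hN
  obtain ⟨Ce, hCe, hnE⟩ := pfc_nE_le h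
  have hT := pfi_T_pos hN
  have hx1 : ∀ᶠ k in U, x k < 1 := h.x_lim.eventually (gt_mem_nhds one_pos)
  have hx0 : ∀ᶠ k in U, C0 * x k < 1 := by
    have : Tendsto (fun k => C0 * x k) U (𝓝 (C0 * 0)) := h.x_lim.const_mul C0
    rw [mul_zero] at this
    exact this.eventually (gt_mem_nhds one_pos)
  have hκ1 : (1 : ℝ) ≤ max 1 (Ca / C0) := le_max_left _ _
  have hep := h.seq.ep4 (max 1 (Ca / C0)) 1 hκ1 one_pos
  refine ⟨1 / Ca, 1 / Ce, 1 / Cx, by positivity, by positivity, by positivity, ?_⟩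
  filter_upwards [ha, hx2, hnE, hT, hx1, hep, h.seq.ok, h.seq.m_eq, h.seq.dT, h.seq.clk, h.seq.mono, h.lam_rng, h.fam, h.min,
    h.x_pos, h.reg, hx0] with k ha hx2 hnE hT hx1 hep hok hm hdT hclk hmono hl hfam hmin hx hreg hx0
  obtain ⟨q, hq⟩ := hmin.1
  have hu01 : (D k).P.u0 ≤ 1 := hok.u01.trans (by norm_num)
  have h1mem : (1 : ℝ) ∈ Icc (D k).P.u0 1 := ⟨hu01, le_rfl⟩
  have h1mem' : (1 : ℝ) ∈ Icc (0 : ℝ) 1 := ⟨zero_le_one, le_rfl⟩
  have hr1 := q.r_mem 1 h1mem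
  have hK := hc.K_pos
  have hρ := hc.ρ_pos
  have hb : (⟨(D k).P, lam k, (D k).b0, (D k).h0, q⟩ : CmI).b = (D k).Pb (lam k) (r k) := by
    rw [← hq]; rfl
  have hh : (⟨(D k).P, lam k, (D k).b0, (D k).h0, q⟩ : CmI).h = (D k).Ph (lam k) (r k) := by
    rw [← hq]; rfl
  refine ⟨⟨(D k).P, lam k, (D k).b0, (D k).h0, q⟩, rfl, rfl, rfl, rfl, hq, hb, hh, ⟨hok, hl.1, hl.2, ?_, ?_, ?_, ?_⟩,
    ⟨hx, hx1.le, ?_, ?_, ?_⟩, hmono.2, hm, ?_, ?_, hT.1.le, ?_, hfam _ hmin.1, ?_, ?_, ?_⟩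
  · -- admissible strength
    intro q'
    exact hfam q'.r ⟨q', rfl⟩
  · -- minimiser
    intro q'
    have := hmin.2 q'.r ⟨q', rfl⟩
    rw [← hq] at this
    exact this
  · -- total matrix clock
    rw [hb]
    unfold P6D.Pb P6C.tau
    rw [if_pos hu01]
    have h1 := (abs_le.1 (hclk 1 h1mem').1).2
    have h2 := cm_e_nonneg (D k).P hl.1.le (r k 1)
    linarith
  · -- total field clock
    rw [hh]
    unfold P6D.Ph P6C.tau
    rw [if_pos hu01]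
    have h1 := (abs_le.1 (hclk 1 h1mem').2).2
    have h2 := cm_e_nonneg (D k).P hl.1.le (r k 1)
    have h3 := cm_e_le (D k).P hl.1.le (r k 1)
    rw [hq] at hr1
    have h4 : (D k).P.e (lam k) (r k 1) * r k 1 ≤ (D k).P.e (lam k) (r k 1) * 1 := mul_le_mul_of_nonneg_left hr1.2 h2
    linarith [hl.2]
  · -- x ≳ a
    show 1 / Ca * (D k).P.a ≤ x k
    rw [div_mul_eq_mul_div, one_mul, div_le_iff₀ hCa]
    linarith
  · -- e(x) x² ≳ n E²
    show 1 / Ce * ((D k).P.N * (D k).P.E ^ 2) ≤ (D k).P.e (lam k) (x k) * x k ^ 2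
    rw [div_mul_eq_mul_div, one_mul, div_le_iff₀ hCe]
    linarith
  · -- outer regularity
    intro u a1 a2 a3
    have := hreg u a1 a2 a3
    rw [← hq] at this
    exact this
  · -- e(x) ≳ x²
    show 1 / Cx * x k ^ 2 ≤ (D k).P.e (lam k) (x k)
    rw [div_mul_eq_mul_div, one_mul, div_le_iff₀ hCx]
    linarith
  · -- (4), O-form
    intro u a1 a2 a3
    have hC0 := h.C0_pos
    have hu : 0 < u := lt_of_lt_of_le (mul_pos hC0 hx) a1
    have hκ0 : 0 < max 1 (Ca / C0) := lt_of_lt_of_le one_pos hκ1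
    have e1 : (D k).P.a / max 1 (Ca / C0) ≤ u := by
      rw [div_le_iff₀ hκ0]
      have e2 : Ca / C0 * u ≤ max 1 (Ca / C0) * u := mul_le_mul_of_nonneg_right (le_max_right _ _) hu.le
      have e3 : Ca * x k ≤ Ca / C0 * u := by
        rw [div_mul_eq_mul_div, le_div_iff₀ hC0]
        nlinarith
      linarith
    have e4 : u / max 1 (Ca / C0) ≤ u := div_le_self hu.le hκ1
    have e5 : u ≤ max 1 (Ca / C0) * u := le_mul_of_one_le_left hu.le hκ1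
    exact hep u u e1 a3.le a2 a3 e4 e5
  · unfold P6C.tau; linarith [hT.2]
  · exact lt_of_lt_of_le (by norm_num) hok.n3
  · -- the total scalar clock
    unfold P6D.Pb P6D.Ph P6C.tau
    rw [if_pos hu01, if_pos hu01]
    have h1 := (abs_le.1 (hclk 1 h1mem').1).2
    have h1' := (abs_le.1 (hclk 1 h1mem').2).2
    have h2 := cm_e_nonneg (D k).P hl.1.le (r k 1)
    rw [hq] at hr1
    have h4 : (D k).P.e (lam k) (r k 1) * r k 1 ≤ (D k).P.e (lam k) (r k 1) * 1 := mul_le_mul_of_nonneg_left hr1.2 h2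
    linarith [hc.T_gt]
  · have := hreg 1 hx0.le le_rfl hu01
    linarith [this.1, this.2]

/-! ## the scalar clock is `O(x)` on the low band -/

theorem pfc_MX_one (n : ℕ) (b h : ℝ → ℝ) (p : GhPos) : cmkMX n b h 1 p = skCS n 1 b h p := by
  unfold cmkMX skCS cmkStar
  simp

/-- **(12) at `l = 1`** along a direct test: `S_p ≤ K (u + x)` at EVERY position (omitted masses and interiors of jumps included) -/
theorem pfc_S_le (hc : c.Ok) (h : PfDir U c D lam x r c1 C1 C0) :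
    ∃ K : ℝ, 0 < K ∧ ∀ᶠ k in U, ∀ p : GhPos, p.Ok 1 →
      skCS (D k).P.n 1 ((D k).Pb (lam k) (r k)) ((D k).Ph (lam k) (r k)) p ≤ K * (p.u + x k) := by
  obtain ⟨ca, ce, cd, hca, hce, -, hI⟩ := pfc_inst hc h
  obtain ⟨K, hK, hraw⟩ := exit_cmp_raw c.m c.cE c.D0 c.tau ca ce c1 C1 C0 hc.m_pos hc.cE_pos hc.D0_pos (pfc_tau_pos hc) hca hce
    h.c1_pos h.C1_pos h.C0_pos 1 le_rfl
  refine ⟨K, hK, ?_⟩
  filter_upwards [hI, pfc_small hc h one_pos 0] with k ⟨I, A⟩ hs p hp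
  have h1 := (hraw I (x k) A.m.ge A.std A.mono (by rw [A.eP]; linarith [hs.1]) A.loc p hp).1
  rw [pfc_MX_one, pow_one, A.eb, A.eh, A.eP] at h1
  exact h1

/-- the scalar clock `K_p = h_p + b_p S_p` is nonnegative and `O(x)` on the low band, if the field clock is -/
theorem pfc_K_le (hc : c.Ok) (h : PfDir U c D lam x r c1 C1 C0) (Cb Ch : ℝ)
    (hf : ∀ᶠ k in U, ∀ p : GhPos, p.Ok 1 → p.u ≤ Cb * x k → ghAt 1 ((D k).Ph (lam k) (r k)) p ≤ Ch * x k) :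
    ∃ CK : ℝ, ∀ᶠ k in U, ∀ p : GhPos, p.Ok 1 → p.u ≤ Cb * x k →
      0 ≤ pfKp (D k).P.n ((D k).Pb (lam k) (r k)) ((D k).Ph (lam k) (r k)) p ∧
      pfKp (D k).P.n ((D k).Pb (lam k) (r k)) ((D k).Ph (lam k) (r k)) p ≤ CK * x k := by
  obtain ⟨ca, ce, cd, -, -, -, hI⟩ := pfc_inst hc h
  obtain ⟨K, hK, hS⟩ := pfc_S_le hc h
  refine ⟨Ch + c.tau * (K * (|Cb| + 1)), ?_⟩
  filter_upwards [hI, hS, hf, h.x_pos] with k ⟨I, A⟩ hS hf hx p hp hpu
  have hS0 := (exit_clk_SB A.n0 one_pos A.adm hp hp le_rfl).1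
  have hb0 := gh_os_at_nonneg zero_le_one A.adm.1 hp.2.2.1
  have hh0 := gh_os_at_nonneg zero_le_one A.adm.2 hp.2.2.1
  have hb1 : ghAt 1 ((D k).Pb (lam k) (r k)) p ≤ c.tau := by
    refine (gh_os_at_le_top zero_le_one A.adm.1 hp).trans ?_
    rw [gh_os_at_top _ _ zero_le_one, ← A.eb]
    exact A.std.bT
  have hS1 : skCS (D k).P.n 1 ((D k).Pb (lam k) (r k)) ((D k).Ph (lam k) (r k)) p ≤ K * (|Cb| + 1) * x k := by
    refine (hS p hp).trans ?_
    have : p.u ≤ |Cb| * x k := hpu.trans (mul_le_mul_of_nonneg_right (le_abs_self _) hx.le)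
    nlinarith
  unfold pfKp
  refine ⟨add_nonneg hh0 (mul_nonneg hb0 hS0), ?_⟩
  have h3 : ghAt 1 ((D k).Pb (lam k) (r k)) p * skCS (D k).P.n 1 ((D k).Pb (lam k) (r k)) ((D k).Ph (lam k) (r k)) p
      ≤ c.tau * (K * (|Cb| + 1) * x k) := mul_le_mul hb1 hS1 hS0 (pfc_tau_pos hc).le
  have h4 := hf p hp hpu
  nlinarith

/-! ## the low cut closure -/

/-- **PE (31), first assertion**, in the U-frame: `S_p = K_p/T + O(x³)` at every position AFTER A JUMP of mass `≤ Cb x`, `K_p = h_p + b_p S_p`      (59: `PfImpCavOm` is now typed at `ghPosA u`).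
From Prop 4.1 (omitted lower cuts) = `PfImpCavOm c`, Lemma 5.5 = `exit_rig_lin`, and (12) = `exit_cmp_raw`. -/
theorem pfc_low (hc : c.Ok) (hOm : PfImpCavOm c) (h : PfDir U c D lam x r c1 C1 C0)
    (hW : (fun k => (D k).P.e (lam k) (x k)) =O[U] (fun k => x k ^ 2)) (Cb Ch : ℝ)
    (hf : ∀ᶠ k in U, ∀ p : GhPos, p.Ok 1 → p.u ≤ Cb * x k → ghAt 1 ((D k).Ph (lam k) (r k)) p ≤ Ch * x k) :
    ∃ CC : ℝ, ∀ᶠ k in U, ∀ u : ℝ, 0 ≤ u → u ≤ 1 → u ≤ Cb * x k →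
      |skCS (D k).P.n 1 ((D k).Pb (lam k) (r k)) ((D k).Ph (lam k) (r k)) (ghPosA u)
        - pfKp (D k).P.n ((D k).Pb (lam k) (r k)) ((D k).Ph (lam k) (r k)) (ghPosA u) / (D k).T| ≤ CC * x k ^ 3 := by
  obtain ⟨CK, hK⟩ := pfc_K_le hc h Cb Ch hf
  obtain ⟨C2, h2⟩ := hOm U D lam x r c1 C1 C0 h hW Cb
  obtain ⟨C3, h3⟩ := exit_rig_lin c hc U D lam x r c1 C1 C0 h CK
  refine ⟨C2 + C3, ?_⟩
  filter_upwards [hK, h2, h3] with k hK h2 h3 u hu0 hu1 hpu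
  have a1 := hK (ghPosA u) (gh_os_posA_ok hu0 hu1) hpu
  have a2 : |skCS (D k).P.n 1 ((D k).Pb (lam k) (r k)) ((D k).Ph (lam k) (r k)) (ghPosA u)
      - pfG (D k) (lam k) (r k) c.tau (pfKp (D k).P.n ((D k).Pb (lam k) (r k)) ((D k).Ph (lam k) (r k)) (ghPosA u))| ≤ C2 * x k ^ 3 :=
    h2 u hu0 hpu
  have a3 := h3.1 _ a1.1 a1.2
  have := abs_sub_le (skCS (D k).P.n 1 ((D k).Pb (lam k) (r k)) ((D k).Ph (lam k) (r k)) (ghPosA u))
    (pfG (D k) (lam k) (r k) c.tau (pfKp (D k).P.n ((D k).Pb (lam k) (r k)) ((D k).Ph (lam k) (r k)) (ghPosA u)))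
    (pfKp (D k).P.n ((D k).Pb (lam k) (r k)) ((D k).Ph (lam k) (r k)) (ghPosA u) / (D k).T)
  linarith

/-! ## W4: the exits of PE Sec. 4 in the U-frame -/

/-- the bridge at a term of a direct test, horizon `c.tau` -/
theorem pfc_brg (hc : c.Ok) {D : P6D} {lam x : ℝ} {r : ℝ → ℝ} {ca ce cd c1 C1 C0 : ℝ} {I : CmI}
    (A : PfcAt c D lam x r ca ce cd c1 C1 C0 I) {p : GhPos} (hp : p.Ok 1) :
    cvGamC D.P.n (D.Pb lam r) (D.Ph lam r) p = pfG D lam r c.tau (pfKp D.P.n (D.Pb lam r) (D.Ph lam r) p) := by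
  refine exit_gam_brg A.n0 A.adm.1 A.adm.2 (pfc_tau_pos hc) ?_ hp
  have hp1 : (ghPosA 1).Ok 1 := gh_os_posA_ok zero_le_one le_rfl
  obtain ⟨hS0, -, -, hS2, hB1⟩ := exit_clk_SB A.n0 one_pos A.adm hp1 hp1 le_rfl
  have hS1 : skCS D.P.n 1 (D.Pb lam r) (D.Ph lam r) (ghPosA 1) ≤ 1 := by nlinarith
  have hb0 : 0 ≤ D.Pb lam r 1 := by
    have := gh_os_at_nonneg zero_le_one A.adm.1 hp1.2.2.1
    rwa [gh_os_at_top _ _ zero_le_one] at this
  unfold pfKp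
  rw [gh_os_at_top _ _ zero_le_one, gh_os_at_top _ _ zero_le_one]
  have := A.top
  nlinarith

/-- `W = max(x, √e(x)) ≤ CW x` -/
theorem pfc_W_le (h : PfDir U c D lam x r c1 C1 C0) (hW : (fun k => (D k).P.e (lam k) (x k)) =O[U] (fun k => x k ^ 2)) :
    ∃ CW : ℝ, 1 ≤ CW ∧ ∀ᶠ k in U, cmW (D k).P (lam k) (x k) ≤ CW * x k := by
  obtain ⟨Cw, hCw, hb⟩ := hW.exists_pos
  refine ⟨max 1 (Real.sqrt Cw), le_max_left _ _, ?_⟩
  filter_upwards [hb.bound, h.x_pos] with k hk hx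
  rw [Real.norm_eq_abs, Real.norm_eq_abs, abs_of_nonneg (sq_nonneg (x k))] at hk
  unfold cmW
  refine max_le (le_mul_of_one_le_left hx.le (le_max_left _ _)) ?_
  calc Real.sqrt ((D k).P.e (lam k) (x k)) ≤ Real.sqrt (Cw * x k ^ 2) := Real.sqrt_le_sqrt ((le_abs_self _).trans hk)
    _ = Real.sqrt Cw * x k := by rw [Real.sqrt_mul hCw.le, Real.sqrt_sq hx.le]
    _ ≤ max 1 (Real.sqrt Cw) * x k := mul_le_mul_of_nonneg_right (le_max_right _ _) hx.le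

/-- **PE Prop 4.1, omitted lower cuts, in the U-frame**      TEX[PE:prop:cavity-closure] -/
theorem pfc_cav_om (hc : c.Ok) : PfImpCavOm c := by
  intro U D lam x r c1 C1 C0 h hW Cb
  obtain ⟨ca, ce, cd, hca, hce, hcd, hI⟩ := pfc_inst hc h
  obtain ⟨CW, hCW, hWle⟩ := pfc_W_le h hW
  have hcC : c1 ≤ C1 := by
    obtain ⟨k, I, A⟩ := hI.exists
    exact A.cC
  obtain ⟨K, κ, n0, hK, hκ, hom⟩ := exit_cav_om (mm := c.m) (cE := c.cE) (D0 := c.D0) (Tm := c.tau) (ca := ca) (ce := ce) (c := c1)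
    (C := C1) (C0 := C0) (cd := cd) (C4 := 1) (CW := CW) (C' := max Cb 1) hc.m_pos hc.cE_pos hc.D0_pos hca hce h.c1_pos hcC
    h.C0_pos hcd one_pos hCW (lt_of_lt_of_le one_pos (le_max_right _ _))
  refine ⟨K, ?_⟩
  have hCbx : ∀ᶠ k in U, Cb * x k < 1 := by
    have : Tendsto (fun k => Cb * x k) U (𝓝 (Cb * 0)) := h.x_lim.const_mul Cb
    rw [mul_zero] at this
    exact this.eventually (gt_mem_nhds one_pos)
  filter_upwards [hI, hWle, pfc_small hc h hκ n0, h.x_pos, hCbx] with k ⟨I, A⟩ hWle hs hx hCbx u hu0 hpu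
  have hp : (ghPosA u).Ok 1 := gh_os_posA_ok hu0 (hpu.trans hCbx.le)
  have h1 := hom I (x k) (D k).T A.std A.mono A.m A.loc (by rw [A.eP]; exact hs.2.2) A.xe
    (by rw [A.eP, A.el]; exact hWle) (by rw [A.eP]; exact hs.1) hs.2.1 A.T1 A.T2 A.ep4 (ghPosA u) hp
    (hpu.trans (mul_le_mul_of_nonneg_right (le_max_left _ _) hx.le))
  rw [A.eb, A.eh, A.eP, pfc_brg hc A hp] at h1
  exact h1

/-- **PE Prop 4.1, modulus form, in the U-frame**      TEX[PE:prop:cavity-closure] -/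
theorem pfc_cav (hc : c.Ok) : PfImpCav c := by
  intro U D lam x r c1 C1 C0 h cb Cb hcb hcbC
  obtain ⟨ca, ce, cd, hca, hce, hcd, hI⟩ := pfc_inst hc h
  have hcC : c1 ≤ C1 := by
    obtain ⟨k, I, A⟩ := hI.exists
    exact A.cC
  obtain ⟨K, ϑ, hK, hϑ, -, hcav⟩ := exit_cav (mm := c.m) (cE := c.cE) (D0 := c.D0) (Tm := c.tau) (ca := ca) (ce := ce) (c := c1)
    (C := C1) (C0 := C0) (cd := cd) (C4 := 1) (c' := cb) (C' := Cb) hc.m_pos hc.cE_pos hc.D0_pos hca hce h.c1_pos hcC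
    h.C0_pos hcd one_pos hcb hcbC
  -- the set of admissible moduli at the term `k`
  let Good : ℕ → Set ℝ := fun k => {ε : ℝ | 0 ≤ ε ∧ ∀ u : ℝ, cb * x k ≤ u → u ≤ Cb * x k → r k u ≤ Cb * x k →
    |pfS (D k) (lam k) (r k) u - pfG (D k) (lam k) (r k) c.tau (pfK (D k) (lam k) (r k) u)|
      ≤ K * x k ^ 3 * (ε + (pfDl (D k) (lam k) (r k) u / x k) ^ ϑ)}
  have hgood : ∀ ε : ℝ, 0 < ε → ∀ᶠ k in U, ε ∈ Good k := by
    intro ε hε
    obtain ⟨κ, n0, hκ, hc2⟩ := hcav ε hε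
    have hCbx : ∀ᶠ k in U, Cb * x k < 1 := by
      have : Tendsto (fun k => Cb * x k) U (𝓝 (Cb * 0)) := h.x_lim.const_mul Cb
      rw [mul_zero] at this
      exact this.eventually (gt_mem_nhds one_pos)
    filter_upwards [hI, pfc_small hc h (lt_min hκ hcb) n0, h.x_pos, hCbx] with k ⟨I, A⟩ hs hx hCbx
    refine ⟨hε.le, fun u a1 a2 a3 => ?_⟩
    have hu0 : 0 ≤ u := (mul_nonneg hcb.le hx.le).trans a1
    have hu1 : u ≤ 1 := a2.trans hCbx.le
    have hs1 : (D k).P.u0 ≤ κ * x k := hs.1.trans (mul_le_mul_of_nonneg_right (min_le_left _ _) hx.le)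
    have hs1' : (D k).P.u0 ≤ u := (hs.1.trans (mul_le_mul_of_nonneg_right (min_le_right _ _) hx.le)).trans a1
    have h1 := hc2 I (x k) (D k).T A.std A.mono A.m A.loc (by rw [A.eP]; exact hs.2.2) A.xe
      (by rw [A.eP]; exact hs1) (hs.2.1.trans (min_le_left _ _)) A.T1 A.T2 A.ep4 u a1 a2 (by rw [A.eP]; exact hs1') hu1
      (by rw [A.er]; exact a3)
    have hcl : cmkCl u = u := by
      unfold cmkCl
      rw [min_eq_left hu1, max_eq_right hu0]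
    have eS : I.num.S u = pfS (D k) (lam k) (r k) u := by
      show skCS I.P.n 1 I.b I.h (ghPosA (cmkCl u)) = _
      rw [hcl, A.eb, A.eh, A.eP]; rfl
    have eD : I.num.D u = pfDl (D k) (lam k) (r k) u := by
      show Real.sqrt (cmkD2 I.P.n I.b I.h (ghPosA (cmkCl u))) = _
      rw [hcl, A.eb, A.eh, A.eP]; rfl
    rw [eS, eD, A.eb, A.eh, A.eP, pfc_brg hc A (gh_os_posA_ok hu0 hu1)] at h1
    exact h1
  refine ⟨fun k => sInf (Good k), K, ϑ, hK, hϑ, ?_, ?_⟩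
  · -- the modulus tends to `0`
    have hbdd : ∀ k, BddBelow (Good k) := fun k => ⟨0, fun ε hε => hε.1⟩
    rw [Metric.tendsto_nhds]
    intro ε hε
    filter_upwards [hgood (ε / 2) (half_pos hε)] with k hk
    have h1 : sInf (Good k) ≤ ε / 2 := csInf_le (hbdd k) hk
    have h0 : 0 ≤ sInf (Good k) := le_csInf ⟨_, hk⟩ fun e he => he.1
    rw [Real.dist_eq, sub_zero, abs_of_nonneg h0]
    linarith
  · filter_upwards [hgood 1 one_pos, h.x_pos] with k hk hx u a1 a2 a3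
    have hKx : 0 < K * x k ^ 3 := mul_pos hK (pow_pos hx 3)
    -- the bound holds for every admissible modulus, hence for the infimum
    have key : |pfS (D k) (lam k) (r k) u - pfG (D k) (lam k) (r k) c.tau (pfK (D k) (lam k) (r k) u)| / (K * x k ^ 3)
        - (pfDl (D k) (lam k) (r k) u / x k) ^ ϑ ≤ sInf (Good k) := by
      refine le_csInf ⟨_, hk⟩ fun e he => ?_
      have := he.2 u a1 a2 a3
      rw [sub_le_iff_le_add, div_le_iff₀ hKx]
      linarith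
    rw [sub_le_iff_le_add, div_le_iff₀ hKx] at key
    linarith

end

end Claimed.Agent.R286
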