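import Claimed.Agent.R286.Prof.InstNum
import Claimed.Agent.R286.Cmp.P04Contract
import Claimed.Agent.R286.Rig.Phy
import Claimed.Agent.R286.Rig.Scal

/-!
# Row 286 (S0533), PE Section 5, unit PROF, file InstGeo: ONE SYSTEM OF THE PE INSTANCE OF RIG      (owner helper166; head helper98; prefix `pfi_`, types `Pfi*`)

`PfiSys D lam x` = the data of one system over a PE instance `D : P6D`, a strength and a test scale: feasible quantile `q : CmQ D.P`, the moments `S, B` of the changed path (functions of the mass),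
the changed clocks `bA, hA` read AFTER the jumps (right continuous; SK: `ghAt 1 b (ghPosA u)`), the potential and the flow factor `H, J` of PE Lemma 3.3 (`Cm4Geo`, Cmp/P04Contract, helper255),
the scalar curves `Sc : RgSc` (Rig/Scal, helper48; variance time).      Model free.      Dictionary: origin/helper98:notes/R286/PROF_INST_98.md.
`Y.phy : RgPhy` = the unscaled record of helper24 (Rig/Phy).      PROVED here: `pfi_phy_ok : Y.Ok .. → Y.phy.Ok c1 C1 C0 (D0²)`  (ALL structural fields), and for the asymptotic fields of `RgPhyHyp`: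
`pfi_mis` ((9),(10) with ABSOLUTE constant, a.e. MASS), `pfi_mis0` (sharp mismatch where `p = 0`), `pfi_floor_vol` (floor mass).
-/

set_option autoImplicit false

namespace Claimed.Agent.R286

open Filter Topology Set MeasureTheory

noncomputable section

/-- the data of one system -/
structure PfiSys (D : P6D) (lam x : ℝ) where
  q : CmQ D.P
  S : ℝ → ℝ
  B : ℝ → ℝ
  bA : ℝ → ℝ
  hA : ℝ → ℝ
  H : ℝ → ℝ
  J : ℝ → ℝ
  Sc : RgSc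

/-- a mass clamped to `[0,1]` -/
def pfiC01 (u : ℝ) : ℝ := max 0 (min u 1)

/-- a mass clamped to the working interval -/
def pfiCw (P : CmCall) (u : ℝ) : ℝ := max P.u0 (min u 1)

/-- bound of the length of every cap -/
def pfiWc (P : CmCall) : ℝ := P.N ^ (-P.dl) * P.L * Real.log ((1 + P.us) / P.us)

namespace PfiSys

variable {D : P6D} {lam x : ℝ} (Y : PfiSys D lam x)

/-- the scalar covariance path `K_u = h_u + b_u S_u` -/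
def K (u : ℝ) : ℝ := Y.hA u + Y.bA u * Y.S u
/-- `D_u` -/
def Dd (u : ℝ) : ℝ := Real.sqrt (Y.B (pfiC01 u) - Y.S (pfiC01 u) ^ 2)

/-- **the unscaled record of RIG** -/
def phy : RgPhy where
  x := x
  T := D.T
  top := 1
  u0 := D.P.u0
  rmin := D.P.rmin
  wc := pfiWc D.P
  us := D.P.us
  lam := lam
  d := D.P.d
  a2 := Y.Sc.a2
  a4 := Y.Sc.a4
  al := Y.q.al
  r := Y.q.r
  S := Y.S
  Dd := Y.Dd
  K := Y.K
  b0 := fun u => Y.bA u + D.P.e lam (Y.q.r (pfiCw D.P u))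
  h0 := fun u => Y.hA u - D.P.e lam (Y.q.r (pfiCw D.P u)) * Y.q.r (pfiCw D.P u)
  e := fun ρ => D.P.e lam ρ
  p := fun ρ => D.P.pp lam ρ
  H := Y.H
  J := Y.J
  aK := fun s => Y.Sc.al (D.T * s)
  Gm := fun s => Y.Sc.Gam (D.T * s)
  Gm1 := fun s => D.T * Y.Sc.M2 (D.T * s)
  Q3 := fun s => Y.Sc.N3 (D.T * s)
  Q2 := fun s => Y.Sc.M3 (D.T * s)

/-- **what is known about one system** -/
structure Ok (cE D0 c1 C1 C0 Csc : ℝ) : Prop where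
  cE_pos : 0 < cE
  ok : D.P.Ok cE D0
  lam0 : 0 < lam
  lam1 : lam ≤ D.P.d ^ 2
  x0 : 0 < x
  T0 : 0 < D.T
  geo : Cm4Geo D.P lam Y.q Y.S Y.B Y.H Y.J
  bA_mono : MonotoneOn Y.bA (Icc 0 1)
  bA_nn : ∀ u ∈ Icc (0:ℝ) 1, 0 ≤ Y.bA u
  bA_meas : Measurable Y.bA
  hA_mono : MonotoneOn Y.hA (Icc 0 1)
  hA_nn : ∀ u ∈ Icc (0:ℝ) 1, 0 ≤ Y.hA u
  hA_meas : Measurable Y.hA
  reg : P6Reg D.P.u0 Y.q.r c1 C1 C0 x
  sc : Y.Sc.Ok Csc
  tau_ge : D.T ≤ Y.Sc.tau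
  /-- `= scAlK 1 Y.K t` (Sc/GenDefs) -/
  al_eq : ∀ t, Y.Sc.al t = (volume {v : ℝ | v ∈ Ioo 0 1 ∧ Y.K v ≤ t}).toReal

end PfiSys

theorem pfi_geo_eqns_cite : True := by
  have := @PfiSys.K.eq_1; have := @pfiC01.eq_1; have := @pfiCw.eq_1
  have := @PfiSys.Dd.eq_1; have := @pfiWc.eq_1; have := @PfiSys.phy.eq_1
  trivial

variable {D : P6D} {lam x : ℝ} {Y : PfiSys D lam x} {cE D0 c1 C1 C0 Csc : ℝ}

/-! ## elementary facts -/

theorem pfi_c01_mono : Monotone pfiC01 := fun _ _ h => max_le_max_left 0 (min_le_min_right 1 h)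

theorem pfi_c01_mem (u : ℝ) : pfiC01 u ∈ Icc (0:ℝ) 1 :=
  ⟨le_max_left _ _, max_le zero_le_one (min_le_right _ _)⟩

theorem pfi_c01_of_mem {u : ℝ} (hu : u ∈ Icc (0:ℝ) 1) : pfiC01 u = u := by
  unfold pfiC01
  rw [min_eq_left hu.2, max_eq_right hu.1]

theorem pfi_cw_mono (P : CmCall) : Monotone (pfiCw P) := fun _ _ h => max_le_max_left _ (min_le_min_right 1 h)

theorem pfi_cw_mem (hY : Y.Ok cE D0 c1 C1 C0 Csc) (u : ℝ) : pfiCw D.P u ∈ Icc D.P.u0 1 :=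
  ⟨le_max_left _ _, max_le (by linarith [hY.ok.u01]) (min_le_right _ _)⟩

theorem pfi_cw_of_mem {u : ℝ} (hu : u ∈ Icc D.P.u0 1) : pfiCw D.P u = u := by
  unfold pfiCw
  rw [min_eq_left hu.2, max_eq_right hu.1]

theorem pfi_rmin_le_one (hY : Y.Ok cE D0 c1 C1 C0 Csc) : D.P.rmin ≤ 1 := by
  have := Y.q.r_mem D.P.u0 ⟨le_rfl, by linarith [hY.ok.u01]⟩
  exact this.1.trans this.2

theorem pfi_al_mem01 (hY : Y.Ok cE D0 c1 C1 C0 Csc) {ρ : ℝ} (hρ : ρ ∈ Icc D.P.rmin 1) : Y.q.al ρ ∈ Icc (0:ℝ) 1 := by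
  have := cm_q_al_mem hY.cE_pos hY.ok Y.q hρ
  exact ⟨hY.ok.u00.trans this.1, this.2⟩

theorem pfi_Dd_sq (hY : Y.Ok cE D0 c1 C1 C0 Csc) {u : ℝ} (hu : u ∈ Icc (0:ℝ) 1) : Y.Dd u ^ 2 = Y.B u - Y.S u ^ 2 := by
  unfold PfiSys.Dd
  rw [pfi_c01_of_mem hu, Real.sq_sqrt (sub_nonneg.mpr (hY.geo.S_sq u hu))]

theorem pfi_wc_nn (hY : Y.Ok cE D0 c1 C1 C0 Csc) : 0 ≤ pfiWc D.P := by
  have hus := cm_us_pos hY.cE_pos hY.ok
  have hN := cm_N_pos hY.ok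
  have hL := cm_L_pos hY.cE_pos hY.ok
  have h0 : 0 ≤ Real.log ((1 + D.P.us) / D.P.us) := Real.log_nonneg (by rw [le_div_iff₀ hus]; linarith)
  unfold pfiWc
  positivity

theorem pfi_wc_ell (P : CmCall) : pfiWc P + P.rmin = pfiEll P := rfl

theorem pfi_Dd_meas (hY : Y.Ok cE D0 c1 C1 C0 Csc) : Measurable Y.Dd := by
  have h1 : Monotone fun u => Y.B (pfiC01 u) := fun u v huv =>
    hY.geo.B_mono (pfi_c01_mem u) (pfi_c01_mem v) (pfi_c01_mono huv)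
  have h2 : Monotone fun u => Y.S (pfiC01 u) := fun u v huv =>
    hY.geo.S_mono (pfi_c01_mem u) (pfi_c01_mem v) (pfi_c01_mono huv)
  exact (h1.measurable.sub (h2.measurable.pow_const 2)).sqrt

theorem pfi_K_mono (hY : Y.Ok cE D0 c1 C1 C0 Csc) : MonotoneOn Y.K (Icc 0 1) := by
  intro u hu v hv huv
  unfold PfiSys.K
  have h1 := hY.hA_mono hu hv huv
  have h2 := hY.bA_mono hu hv huv
  have h3 := hY.geo.S_mono hu hv huv
  have h4 := hY.bA_nn v hv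
  have h5 := hY.geo.S_nonneg u hu
  have : Y.bA u * Y.S u ≤ Y.bA v * Y.S v := mul_le_mul h2 h3 h5 h4
  linarith

theorem pfi_K_nn (hY : Y.Ok cE D0 c1 C1 C0 Csc) {u : ℝ} (hu : u ∈ Icc (0:ℝ) 1) : 0 ≤ Y.K u :=
  add_nonneg (hY.hA_nn u hu) (mul_nonneg (hY.bA_nn u hu) (hY.geo.S_nonneg u hu))

theorem pfi_rcw_meas (hY : Y.Ok cE D0 c1 C1 C0 Csc) : Measurable fun u => Y.q.r (pfiCw D.P u) := by
  have : Monotone fun u => Y.q.r (pfiCw D.P u) := fun u v huv =>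
    (cm_q_r_strictMono hY.cE_pos hY.ok Y.q).monotoneOn (pfi_cw_mem hY u) (pfi_cw_mem hY v) (pfi_cw_mono D.P huv)
  exact this.measurable

/-! ## the mass profile of the scalar clock -/

theorem pfi_aK_ge (hY : Y.Ok cE D0 c1 C1 C0 Csc) {u t : ℝ} (hu : u ∈ Icc (0:ℝ) 1) (hK : Y.K u ≤ t) : u ≤ Y.Sc.al t := by
  rw [hY.al_eq]
  have hsub : Ioo 0 u ⊆ {v : ℝ | v ∈ Ioo 0 1 ∧ Y.K v ≤ t} := fun v hv =>
    ⟨⟨hv.1, hv.2.trans_le hu.2⟩, (pfi_K_mono hY ⟨hv.1.le, hv.2.le.trans hu.2⟩ hu hv.2.le).trans hK⟩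
  have hfin : volume {v : ℝ | v ∈ Ioo 0 1 ∧ Y.K v ≤ t} ≠ ⊤ :=
    ne_top_of_le_ne_top (by simp) (measure_mono (t := Ioo (0:ℝ) 1) fun v hv => hv.1)
  have h1 := ENNReal.toReal_mono hfin (measure_mono hsub)
  rw [Real.volume_Ioo, ENNReal.toReal_ofReal (by linarith [hu.1])] at h1
  linarith

theorem pfi_aK_le (hY : Y.Ok cE D0 c1 C1 C0 Csc) {u t : ℝ} (hu : u ∈ Icc (0:ℝ) 1) (hK : t < Y.K u) : Y.Sc.al t ≤ u := by
  rw [hY.al_eq]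
  have hsub : {v : ℝ | v ∈ Ioo 0 1 ∧ Y.K v ≤ t} ⊆ Ioo 0 u := by
    intro v hv
    refine ⟨hv.1.1, ?_⟩
    by_contra hc
    have := pfi_K_mono hY hu ⟨hv.1.1.le, hv.1.2.le⟩ (not_lt.mp hc)
    linarith [hv.2]
  have h1 := ENNReal.toReal_mono (b := volume (Ioo 0 u)) (by simp) (measure_mono hsub)
  rw [Real.volume_Ioo, ENNReal.toReal_ofReal (by linarith [hu.1])] at h1
  linarith

/-! ## the scalar curves in scalar time `q = k/T` -/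

theorem pfi_T_maps (hY : Y.Ok cE D0 c1 C1 C0 Csc) {s : ℝ} (hs : s ∈ Icc (0:ℝ) 1) : D.T * s ∈ Icc 0 Y.Sc.tau :=
  ⟨mul_nonneg hY.T0.le hs.1, (mul_le_of_le_one_right hY.T0.le hs.2).trans hY.tau_ge⟩

theorem pfi_Gm_eq (hY : Y.Ok cE D0 c1 C1 C0 Csc) {s : ℝ} (hs : s ∈ Icc (0:ℝ) 1) :
    Y.Sc.Gam (D.T * s) = ∫ σ in (0:ℝ)..s, D.T * Y.Sc.M2 (D.T * σ) := by
  rw [hY.sc.Gam_eq _ (pfi_T_maps hY hs), intervalIntegral.integral_const_mul,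
    intervalIntegral.mul_integral_comp_mul_left, mul_zero]

theorem pfi_Gm1_eq (hY : Y.Ok cE D0 c1 C1 C0 Csc) {s : ℝ} (hs : s ∈ Icc (0:ℝ) 1) :
    D.T * Y.Sc.M2 (D.T * s) = D.T * Y.Sc.M2 (D.T * 0)
      + ∫ σ in (0:ℝ)..s, D.T ^ 2 * (Y.Sc.N3 (D.T * σ) - 2 * Y.Sc.al (D.T * σ) * Y.Sc.M3 (D.T * σ)) := by
  rw [hY.sc.M2_eq _ (pfi_T_maps hY hs), intervalIntegral.integral_const_mul, mul_zero]
  have := intervalIntegral.mul_integral_comp_mul_left (a := 0) (b := s)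
    (f := fun k => Y.Sc.N3 k - 2 * Y.Sc.al k * Y.Sc.M3 k) D.T
  rw [mul_zero] at this
  rw [← this]
  ring

/-! ## the potential -/

theorem pfi_G_eq (hY : Y.Ok cE D0 c1 C1 C0 Csc) {ρ : ℝ} (hρ : ρ ∈ Icc D.P.rmin 1) :
    Y.phy.G ρ = D.P.e lam ρ * cmBr (D.P.pp lam ρ) ρ (Y.S (Y.q.al ρ)) (Y.B (Y.q.al ρ)) := by
  have h1 := pfi_Dd_sq hY (pfi_al_mem01 hY hρ)
  show D.P.e lam ρ * ((2 - D.P.pp lam ρ) * ρ - 2 * (1 - D.P.pp lam ρ) * Y.S (Y.q.al ρ)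
    - D.P.pp lam ρ * (Y.S (Y.q.al ρ) ^ 2 + Y.Dd (Y.q.al ρ) ^ 2) / ρ) = _
  rw [h1]
  unfold cmBr
  ring_nf

theorem pfi_H_int (hY : Y.Ok cE D0 c1 C1 C0 Csc) {ρ ρ' : ℝ} (h1 : D.P.rmin < ρ) (h2 : ρ ≤ ρ') (h3 : ρ' ≤ 1) :
    IntervalIntegrable (fun σ => Y.J σ * Y.phy.G σ) volume ρ ρ' := by
  have hr0 := hY.ok.r0
  have hsub : uIcc ρ ρ' ⊆ Icc D.P.rmin 1 := by
    rw [uIcc_of_le h2]; exact Icc_subset_Icc h1.le h3
  have hpos : ∀ σ ∈ uIcc ρ ρ', σ ≠ 0 := by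
    intro σ hσ
    rw [uIcc_of_le h2] at hσ
    have : 0 < σ := lt_of_lt_of_le (lt_of_le_of_lt hr0 h1) hσ.1
    exact this.ne'
  have hJ : ContinuousOn Y.J (uIcc ρ ρ') := hY.geo.J_cont.mono hsub
  have he : ContinuousOn (fun σ => D.P.e lam σ) (uIcc ρ ρ') := (cm_e_cont _ _).continuousOn
  have hp : ContinuousOn (fun σ => D.P.pp lam σ) (uIcc ρ ρ') := (cm_pp_cont _ _).continuousOn
  have hal : MonotoneOn Y.q.al (Icc D.P.rmin 1) := (cm_q_al_strictMono hY.cE_pos hY.ok Y.q).monotoneOn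
  have hS : IntervalIntegrable (fun σ => Y.S (Y.q.al σ)) volume ρ ρ' := by
    refine MonotoneOn.intervalIntegrable fun a ha b hb hab => ?_
    exact hY.geo.S_mono (pfi_al_mem01 hY (hsub ha)) (pfi_al_mem01 hY (hsub hb)) (hal (hsub ha) (hsub hb) hab)
  have hB : IntervalIntegrable (fun σ => Y.B (Y.q.al σ)) volume ρ ρ' := by
    refine MonotoneOn.intervalIntegrable fun a ha b hb hab => ?_
    exact hY.geo.B_mono (pfi_al_mem01 hY (hsub ha)) (pfi_al_mem01 hY (hsub hb)) (hal (hsub ha) (hsub hb) hab)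
  have c1 : ContinuousOn (fun σ => Y.J σ * (D.P.e lam σ * ((2 - D.P.pp lam σ) * σ))) (uIcc ρ ρ') :=
    hJ.mul (he.mul ((continuousOn_const.sub hp).mul continuousOn_id))
  have c2 : ContinuousOn (fun σ => Y.J σ * (D.P.e lam σ * (2 * (1 - D.P.pp lam σ)))) (uIcc ρ ρ') :=
    hJ.mul (he.mul (continuousOn_const.mul (continuousOn_const.sub hp)))
  have c3 : ContinuousOn (fun σ => Y.J σ * (D.P.e lam σ * (D.P.pp lam σ / σ))) (uIcc ρ ρ') :=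
    hJ.mul (he.mul (hp.div continuousOn_id hpos))
  have tot := (c1.intervalIntegrable.sub (hS.continuousOn_mul c2)).sub (hB.continuousOn_mul c3)
  refine tot.congr fun σ hσ => ?_
  have hσ' : σ ∈ Icc D.P.rmin 1 := hsub (uIoc_subset_uIcc hσ)
  rw [pfi_G_eq hY hσ']
  unfold cmBr
  ring

theorem pfi_H_eq (hY : Y.Ok cE D0 c1 C1 C0 Csc) {ρ ρ' : ℝ} (h1 : D.P.rmin ≤ ρ) (h2 : ρ ≤ ρ') (h3 : ρ' ≤ 1) :
    Y.H ρ' - Y.H ρ = ∫ σ in ρ..ρ', Y.J σ * Y.phy.G σ := by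
  rw [hY.geo.H_sub ρ ⟨h1, h2.trans h3⟩ ρ' ⟨h1.trans h2, h3⟩]
  refine intervalIntegral.integral_congr fun σ hσ => ?_
  rw [uIcc_of_le h2] at hσ
  rw [pfi_G_eq hY ⟨h1.trans hσ.1, hσ.2.trans h3⟩]

/-- every cap is shorter than `wc` -/
theorem pfi_cap_len (hY : Y.Ok cE D0 c1 C1 C0 Csc) {rL rR : ℝ} (hI : CmCapI D.P Y.H rL rR) : rR - rL ≤ pfiWc D.P := by
  have h1 := cm4_cap_len hY.cE_pos hY.ok hY.geo hI
  have hus := cm_us_pos hY.cE_pos hY.ok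
  have hN := cm_N_pos hY.ok
  have hL := cm_L_pos hY.cE_pos hY.ok
  obtain ⟨i1, i2, i3, -, -, -⟩ := hI
  have mL := pfi_al_mem01 hY (ρ := rL) ⟨i1, i2.le.trans i3⟩
  have mR := pfi_al_mem01 hY (ρ := rR) ⟨i1.trans i2.le, i3⟩
  have h2 : Real.log ((Y.q.al rR + D.P.us) / (Y.q.al rL + D.P.us)) ≤ Real.log ((1 + D.P.us) / D.P.us) := by
    refine Real.log_le_log (by apply div_pos <;> linarith [mL.1, mR.1]) ?_
    exact div_le_div₀ (by linarith) (by linarith [mR.2]) hus (by linarith [mL.1])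
  refine h1.trans ?_
  unfold pfiWc
  exact mul_le_mul_of_nonneg_left h2 (by positivity)

theorem pfi_cap (hY : Y.Ok cE D0 c1 C1 C0 Csc) {ρ : ℝ} (h1 : D.P.rmin ≤ ρ) (h2 : ρ + pfiWc D.P < 1) (hH : Y.H ρ < 0) :
    ∃ ρ', ρ < ρ' ∧ ρ' ≤ ρ + pfiWc D.P ∧ Y.H ρ' = 0 := by
  have hw := pfi_wc_nn hY
  obtain ⟨rL, rR, hI, hm⟩ := cm4_cap_ex hY.cE_pos hY.ok hY.geo (r := ρ) ⟨h1, by linarith⟩ hH
  have hlen := pfi_cap_len hY hI
  have hR : rR ≤ ρ + pfiWc D.P := by linarith [hm.1]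
  have hz : Y.H rR = 0 := by
    rcases hI.2.2.2.2.2 with h | h
    · exfalso; linarith
    · exact h
  refine ⟨rR, lt_of_le_of_ne hm.2 ?_, hR, hz⟩
  rintro rfl
  linarith

theorem pfi_J_dist (hY : Y.Ok cE D0 c1 C1 C0 Csc) {ρ ρ' : ℝ} (h1 : D.P.rmin ≤ ρ) (h2 : ρ ≤ ρ') (h3 : ρ' ≤ 1) :
    Y.J ρ' * (Y.q.al ρ + D.P.us) ^ 2 ≤ Y.J ρ * (Y.q.al ρ' + D.P.us) ^ 2 := by
  have hd := (hY.geo.J_dist ρ ρ' h1 h2 h3).2
  have hus := cm_us_pos hY.cE_pos hY.ok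
  have m1 := pfi_al_mem01 hY (ρ := ρ) ⟨h1, h2.trans h3⟩
  have hpos : 0 < Y.q.al ρ + D.P.us := by linarith [m1.1]
  rw [div_pow, div_mul_eq_mul_div, le_div_iff₀ (by positivity)] at hd
  linarith

/-- **all structural fields of `RgPhy.Ok`** -/
theorem pfi_phy_ok (hY : Y.Ok cE D0 c1 C1 C0 Csc) : Y.phy.Ok c1 C1 C0 (D0 ^ 2) where
  x_pos := hY.x0
  T_pos := hY.T0
  u0_nn := hY.ok.u00
  rmin_nn := hY.ok.r0
  rmin_top := pfi_rmin_le_one hY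
  top_le := le_rfl
  wc_nn := pfi_wc_nn hY
  us_nn := (cm_us_pos hY.cE_pos hY.ok).le
  al_mono := (cm_q_al_strictMono hY.cE_pos hY.ok Y.q).monotoneOn
  al_min := Y.q.al_min
  al_one := Y.q.al_one
  r_mono := (cm_q_r_strictMono hY.cE_pos hY.ok Y.q).monotoneOn
  r_mem := Y.q.r_mem
  al_r := Y.q.al_r
  r_al := Y.q.r_al
  reg := hY.reg
  S_mono := hY.geo.S_mono
  S_nn := hY.geo.S_nonneg
  Dd_nn := fun _ => Real.sqrt_nonneg _
  Dd_meas := pfi_Dd_meas hY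
  K_mono := pfi_K_mono hY
  K_nn := fun _ hu => pfi_K_nn hY hu
  K_eq := by
    intro ρ h1 h2
    have hρ : ρ ∈ Icc D.P.rmin 1 := ⟨h1.le, h2⟩
    have hm := cm_q_al_mem hY.cE_pos hY.ok Y.q hρ
    show Y.hA (Y.q.al ρ) + Y.bA (Y.q.al ρ) * Y.S (Y.q.al ρ)
      = Y.hA (Y.q.al ρ) - D.P.e lam (Y.q.r (pfiCw D.P (Y.q.al ρ))) * Y.q.r (pfiCw D.P (Y.q.al ρ)) + D.P.e lam ρ * ρ
        + (Y.bA (Y.q.al ρ) + D.P.e lam (Y.q.r (pfiCw D.P (Y.q.al ρ))) - D.P.e lam ρ) * Y.S (Y.q.al ρ)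
    rw [pfi_cw_of_mem hm, Y.q.r_al ρ hρ]
    ring
  b0_meas := hY.bA_meas.add ((cm_e_cont _ _).measurable.comp (pfi_rcw_meas hY))
  h0_meas := hY.hA_meas.sub (((cm_e_cont _ _).measurable.comp (pfi_rcw_meas hY)).mul (pfi_rcw_meas hY))
  e_meas := (cm_e_cont _ _).measurable
  p_meas := (cm_pp_cont _ _).measurable
  e_pos := fun ρ _ => cm_e_pos _ hY.lam0 ρ
  e_le := fun ρ _ => (cm_e_le _ hY.lam0.le ρ).trans (hY.lam1.trans (pow_le_pow_left₀ hY.ok.d0.le hY.ok.d1 2))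
  p_nn := fun ρ => cm_pp_nonneg _ _ ρ
  p_le := fun ρ => (cm_pp_lt_one _ _ ρ).le
  aK_mono := fun s t hst => hY.sc.al_mono (mul_le_mul_of_nonneg_left hst hY.T0.le)
  aK_nn := fun s => hY.sc.al_nn _
  aK_ge := by
    intro u hu s hs
    refine pfi_aK_ge hY hu ?_
    have hs' : Y.K u / D.T ≤ s := hs
    rw [div_le_iff₀ hY.T0] at hs'
    linarith
  aK_le := by
    intro u hu s hs
    refine pfi_aK_le hY hu ?_
    have hs' : s < Y.K u / D.T := hs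
    rw [lt_div_iff₀ hY.T0] at hs'
    linarith
  Q3_cont := hY.sc.N3_cont.comp (by fun_prop) fun s hs => pfi_T_maps hY hs
  Q2_cont := hY.sc.M3_cont.comp (by fun_prop) fun s hs => pfi_T_maps hY hs
  Gm_eq := fun s hs => pfi_Gm_eq hY hs
  Gm1_eq := fun s hs => pfi_Gm1_eq hY hs
  J_pos := hY.geo.J_pos
  J_mono := fun ρ hρ ρ' hρ' h => (hY.geo.J_dist ρ ρ' hρ.1 h hρ'.2).1
  J_dist := fun ρ ρ' h1 h2 h3 => pfi_J_dist hY h1 h2 h3
  H_int := fun ρ ρ' h1 h2 h3 => pfi_H_int hY h1 h2 h3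
  H_eq := fun ρ ρ' h1 h2 h3 => pfi_H_eq hY h1.le h2 h3
  cap := fun ρ h1 h2 hH => pfi_cap hY h1 h2 hH

/-! ## from almost every radius to almost every mass -/

theorem pfi_al_lip (hY : Y.Ok cE D0 c1 C1 C0 Csc) :
    LipschitzOnWith (Real.toNNReal (D.P.M 1)) Y.q.al (Icc D.P.rmin 1) := by
  have hM : 0 ≤ D.P.M 1 := (cm_M_pos hY.cE_pos hY.ok zero_le_one).le
  have hmono := (cm_q_al_strictMono hY.cE_pos hY.ok Y.q).monotoneOn
  have key : ∀ a ∈ Icc D.P.rmin 1, ∀ b ∈ Icc D.P.rmin 1, a ≤ b → |Y.q.al a - Y.q.al b| ≤ D.P.M 1 * |a - b| := by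
    intro a ha b hb hab
    rw [abs_sub_comm, abs_of_nonneg (sub_nonneg.mpr (hmono ha hb hab)), abs_sub_comm, abs_of_nonneg (sub_nonneg.mpr hab)]
    exact cm_q_al_lip hY.cE_pos hY.ok Y.q ha.1 hab hb.2
  refine LipschitzOnWith.of_dist_le_mul fun a ha b hb => ?_
  rw [Real.dist_eq, Real.dist_eq, Real.coe_toNNReal _ hM]
  rcases le_total a b with hab | hab
  · exact key a ha b hb hab
  · rw [abs_sub_comm, abs_sub_comm a b]
    exact key b hb a ha hab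

/-- a property of almost every radius holds at the radius of almost every mass (`α` is Lipschitz at fixed `n`) -/
theorem pfi_ae_mass (hY : Y.Ok cE D0 c1 C1 C0 Csc) {Q : ℝ → Prop} (h : ∀ᵐ ρ, ρ ∈ Icc D.P.rmin 1 → Q ρ) :
    ∀ᵐ u, u ∈ Icc D.P.u0 1 → Q (Y.q.r u) := by
  rw [ae_iff] at h ⊢
  set N := {ρ | ¬(ρ ∈ Icc D.P.rmin 1 → Q ρ)} with hN
  have hNsub : N ⊆ Icc D.P.rmin 1 := by
    intro ρ hρ
    by_contra hc
    exact hρ fun h' => absurd h' hc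
  have hsub : {u | ¬(u ∈ Icc D.P.u0 1 → Q (Y.q.r u))} ⊆ Y.q.al '' N := by
    intro u hu
    have hu1 : u ∈ Icc D.P.u0 1 := by
      by_contra hc
      exact hu fun h' => absurd h' hc
    refine ⟨Y.q.r u, fun hq => hu fun _ => hq (Y.q.r_mem u hu1), Y.q.al_r u hu1⟩
  have hl := ((pfi_al_lip hY).mono hNsub).hausdorffMeasure_image_le (d := 1) zero_le_one
  rw [hausdorffMeasure_real, h, mul_zero] at hl
  exact measure_mono_null hsub (nonpos_iff_eq_zero.1 hl)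

/-! ## mismatch off the floor -/

/-- a point of `{H < 0}` other than the two ends of the radius interval lies in the INTERIOR of a cap -/
theorem pfi_cap_int (hY : Y.Ok cE D0 c1 C1 C0 Csc) {ρ : ℝ} (h1 : D.P.rmin < ρ) (h2 : ρ < 1) (hH : Y.H ρ < 0) :
    ∃ rL rR, CmCapI D.P Y.H rL rR ∧ ρ ∈ Ioo rL rR := by
  obtain ⟨rL, rR, hI, hm⟩ := cm4_cap_ex hY.cE_pos hY.ok hY.geo (r := ρ) ⟨h1.le, h2.le⟩ hH
  refine ⟨rL, rR, hI, lt_of_le_of_ne hm.1 ?_, lt_of_le_of_ne hm.2 ?_⟩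
  · rintro rfl
    rcases hI.2.2.2.2.1 with h | h <;> linarith
  · rintro rfl
    rcases hI.2.2.2.2.2 with h | h <;> linarith

/-- on an initial cap -/
theorem pfi_mis_init (hY : Y.Ok cE D0 c1 C1 C0 Csc) {rR ρ : ℝ} (hI : CmCapI D.P Y.H D.P.rmin rR)
    (hρ : ρ ∈ Ioo D.P.rmin rR) : |Y.S (Y.q.al ρ) - ρ| ≤ pfiWc D.P + D.P.rmin := by
  have h1 := cm4_cap_S_le hY.cE_pos hY.ok hY.lam0 hY.geo hI hρ
  have h2 := pfi_cap_len hY hI
  have h3 := hY.geo.S_nonneg _ (pfi_al_mem01 hY (ρ := ρ) ⟨hρ.1.le, hρ.2.le.trans hI.2.2.1⟩)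
  have h4 := hY.ok.r0
  rw [abs_le]
  constructor <;> linarith [hρ.1, hρ.2]

/-- PE (9), (10) with an absolute constant, almost every radius -/
theorem pfi_mis_rad (hY : Y.Ok cE D0 c1 C1 C0 Csc) :
    ∀ᵐ ρ, ρ ∈ Icc D.P.rmin 1 → Y.H ρ ≤ 0 →
      |Y.S (Y.q.al ρ) - ρ| ≤ 15 * (Y.Dd (Y.q.al ρ) + pfiWc D.P + D.P.rmin) := by
  have n1 : ∀ᵐ ρ : ℝ, ρ ≠ D.P.rmin := by simp [ae_iff]
  have n2 : ∀ᵐ ρ : ℝ, ρ ≠ 1 := by simp [ae_iff]
  filter_upwards [cm4_contact hY.cE_pos hY.ok hY.lam0 hY.geo, n1, n2] with ρ hc n1 n2 hρ hH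
  have hw := pfi_wc_nn hY
  have hr0 := hY.ok.r0
  have hD0 : 0 ≤ Y.Dd (Y.q.al ρ) := Real.sqrt_nonneg _
  have hDsq := pfi_Dd_sq hY (pfi_al_mem01 hY hρ)
  rcases hH.eq_or_lt with h0 | hneg
  · have h3 := (hc hρ h0).2.2
    rw [← hDsq] at h3
    have := abs_le_of_sq_le_sq h3 hD0
    linarith
  · obtain ⟨rL, rR, hI, hm⟩ := pfi_cap_int hY (lt_of_le_of_ne hρ.1 (Ne.symm n1)) (lt_of_le_of_ne hρ.2 n2) hneg
    have hlen := pfi_cap_len hY hI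
    have hlen0 : 0 ≤ rR - rL := by linarith [hI.2.1]
    rcases hI.1.eq_or_lt with hin | hni
    · subst hin
      have := pfi_mis_init hY hI hm
      linarith
    · have h3 := cm4_cap_mis hY.cE_pos hY.ok hY.lam0 hY.geo hI hni hm
      rw [← hDsq] at h3
      have h4 : (Y.S (Y.q.al ρ) - ρ) ^ 2 ≤ (15 * (Y.Dd (Y.q.al ρ) + pfiWc D.P + D.P.rmin)) ^ 2 := by
        have : (rR - rL) ^ 2 ≤ pfiWc D.P ^ 2 := pow_le_pow_left₀ hlen0 hlen 2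
        nlinarith [mul_nonneg hD0 hw, mul_nonneg hD0 hr0, mul_nonneg hw hr0, sq_nonneg D.P.rmin,
          sq_nonneg (Y.Dd (Y.q.al ρ)), sq_nonneg (pfiWc D.P)]
      exact abs_le_of_sq_le_sq h4 (by positivity)

/-- PE (9), (10) with an absolute constant, almost every MASS -/
theorem pfi_mis (hY : Y.Ok cE D0 c1 C1 C0 Csc) :
    ∀ᵐ u, D.P.u0 < u → u ≤ 1 → Y.H (Y.q.r u) ≤ 0 → |Y.S u - Y.q.r u| ≤ 15 * (Y.Dd u + pfiWc D.P + D.P.rmin) := by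
  filter_upwards [pfi_ae_mass hY (pfi_mis_rad hY)] with u hu h1 h2 hH
  have hm : u ∈ Icc D.P.u0 1 := ⟨h1.le, h2⟩
  have := hu hm hH
  rwa [Y.q.al_r u hm] at this

/-- sharp mismatch where `p = 0` up to the right end of the cap, almost every radius -/
theorem pfi_mis0_rad (hY : Y.Ok cE D0 c1 C1 C0 Csc) :
    ∀ᵐ ρ, ρ ∈ Icc D.P.rmin 1 → Y.H ρ ≤ 0 → D.P.pp lam (ρ + pfiWc D.P) = 0 →
      |Y.S (Y.q.al ρ) - ρ| ≤ pfiWc D.P + D.P.rmin := by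
  have n1 : ∀ᵐ ρ : ℝ, ρ ≠ D.P.rmin := by simp [ae_iff]
  have n2 : ∀ᵐ ρ : ℝ, ρ ≠ 1 := by simp [ae_iff]
  filter_upwards [cm4_contact hY.cE_pos hY.ok hY.lam0 hY.geo, n1, n2] with ρ hc n1 n2 hρ hH hp
  have hw := pfi_wc_nn hY
  have hr0 := hY.ok.r0
  have hpm := cm_pp_mono D.P hY.ok.d0 hY.lam0.le
  have hp0 : ∀ σ, σ ≤ ρ + pfiWc D.P → D.P.pp lam σ = 0 := fun σ hσ =>
    le_antisymm ((hpm hσ).trans hp.le) (cm_pp_nonneg _ _ σ)
  rcases hH.eq_or_lt with h0 | hneg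
  · have h3 := (hc hρ h0).1
    rw [hp0 ρ (by linarith)] at h3
    unfold cmBr at h3
    rw [zero_mul, zero_div] at h3
    have : Y.S (Y.q.al ρ) - ρ = 0 := by linarith
    rw [this, abs_zero]
    linarith
  · obtain ⟨rL, rR, hI, hm⟩ := pfi_cap_int hY (lt_of_le_of_ne hρ.1 (Ne.symm n1)) (lt_of_le_of_ne hρ.2 n2) hneg
    have hlen := pfi_cap_len hY hI
    rcases hI.1.eq_or_lt with hin | hni
    · subst hin
      exact pfi_mis_init hY hI hm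
    · have h3 := cm4_cap_p0 hY.cE_pos hY.ok hY.lam0 hY.geo hI hni (hp0 rR (by linarith [hm.1])) hm
      linarith

theorem pfi_mis0 (hY : Y.Ok cE D0 c1 C1 C0 Csc) :
    ∀ᵐ u, D.P.u0 < u → u ≤ 1 → Y.H (Y.q.r u) ≤ 0 → D.P.pp lam (Y.q.r u + pfiWc D.P) = 0 →
      |Y.S u - Y.q.r u| ≤ pfiWc D.P + D.P.rmin := by
  filter_upwards [pfi_ae_mass hY (pfi_mis0_rad hY)] with u hu h1 h2 hH hp
  have hm : u ∈ Icc D.P.u0 1 := ⟨h1.le, h2⟩
  have := hu hm hH hp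
  rwa [Y.q.al_r u hm] at this

/-- the total floor mass -/
theorem pfi_floor_vol (hY : Y.Ok cE D0 c1 C1 C0 Csc) :
    volume {u | D.P.u0 < u ∧ u ≤ 1 ∧ 0 < Y.H (Y.q.r u)} ≤ ENNReal.ofReal (D.P.N ^ (-D.P.dl) * D.P.us) := by
  refine (measure_mono ?_).trans (cm4_floor_mass hY.cE_pos hY.ok hY.geo)
  intro u hu
  have hm : u ∈ Icc D.P.u0 1 := ⟨hu.1.le, hu.2.1⟩
  exact ⟨Y.q.r u, ⟨Y.q.r_mem u hm, hu.2.2⟩, Y.q.al_r u hm⟩

end

end Claimed.Agent.R286
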