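import Claimed.Agent.R286.Prof.Imports
import Claimed.Agent.R286.Prof.InstNum
import Claimed.Agent.R286.Rig.Phy
import Claimed.Agent.R286.Brg.Osc
import Claimed.Agent.R286.Exit.ClkStat
import Claimed.Agent.R286.Cmp.Prof

/-!
# Row 286 (S0533), PE Section 5, unit PROF, file InstSc: THE SCALAR FIELDS, THE CLOCKS AND THE MOMENTS OF THE PE INSTANCE OF `RgPhy`      (owner helper98; prefix `pfs_`)      0 own sorry

Source: PE profile.tex l.140-175 (Lemma 5.3), l.291-325.      TEX[PE:prof:scalar-derivatives]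
From `PfImpSc` (Prof/Imports: PE Lemma 5.3 in VARIANCE time `t`, horizon `τ`, uniform in the profile) to the fields `aK, Gm, Gm1, Q3, Q2, a2, a4` of `RgPhy` (Rig/Phy.lean, helper24), which live in SCALAR TIME `q = t/T`.
* `pfsAK n b h T q = α_K(T q)`, `pfsGm = Γ(T q)`, `pfsGm1 = T E V_zz²(T q)`, `pfsQ3 = E V_zzz²(T q)`, `pfsQ2 = E V_zz³(T q)`, `pfsA2 = V_zz(0,0)`, `pfsA4 = V_zzzz(0,0)`.
* `pfs_al_*`      the profile `α_K = scAlK 1 K` : monotone, values in `[0,1]`, `ScCoef`;   `pfs_aK_ge`, `pfs_aK_le` : it is the distribution function of `K` (only monotonicity of `K` on `[0,1]` is used).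
* `pfs_fields`    all analytic fields at once, constants `cs, Cs` uniform in `(n, b, h, T)`.      `pfs_kappa_rng`: the range of `κ = T a4²/(2 a2³)`.
* CLOCKS: `pfsR` (quantile read on `[u0,1]`), `pfsB0`, `pfsH0` = RIGHT CONTINUOUS bare clocks `b(u+) + e(r u)`, `h(u+) - e(r u) r u` (fields `b0`, `h0` of the instance), `pfsDd` (`D_u` read on `[0,1]`; field `Dd`).
  `pfs_K_eq`, `pfs_K_eq_al` (field `K_eq`), `pfs_B0_meas`, `pfs_H0_meas`, `pfs_Dd_meas`, `pfs_Dd_nn`, `pfs_S_mono`, `pfs_S_nn`, `pfs_S_sq`, `pfs_B_le`, `pfs_B_eq` (`B = S² + D²`), `pfs_K_mono`, `pfs_K_nn` (from `exit_clk_SB`),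
  `pfs_B0_tendsto` (they are the right limits of `D.b0`, `D.h0`), **`pfs_bare`** (field `bare` of `RgPhyHyp`, from `pfi_ep4`).
-/

set_option autoImplicit false

namespace Claimed.Agent.R286

open Filter Topology Set MeasureTheory

noncomputable section

/-! ## the profile of a clock -/

theorem pfs_alK_le_one (K : ℝ → ℝ) (t : ℝ) : scAlK 1 K t ≤ 1 := by
  unfold scAlK
  have h1 : volume {v : ℝ | v ∈ Ioo (0:ℝ) 1 ∧ K v ≤ t} ≤ volume (Ioo (0:ℝ) 1) := measure_mono fun v hv => hv.1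
  have h2 : volume (Ioo (0:ℝ) 1) = 1 := by simp
  rw [h2] at h1
  exact ENNReal.toReal_le_of_le_ofReal zero_le_one (by simpa using h1)

theorem pfs_alK_nn (K : ℝ → ℝ) (t : ℝ) : 0 ≤ scAlK 1 K t := ENNReal.toReal_nonneg

theorem pfs_alK_fin (K : ℝ → ℝ) (t : ℝ) : volume {v : ℝ | v ∈ Ioo (0:ℝ) 1 ∧ K v ≤ t} ≠ ⊤ := by
  have h1 : volume {v : ℝ | v ∈ Ioo (0:ℝ) 1 ∧ K v ≤ t} ≤ volume (Ioo (0:ℝ) 1) := measure_mono fun v hv => hv.1
  have h2 : volume (Ioo (0:ℝ) 1) = 1 := by simp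
  rw [h2] at h1
  exact ne_top_of_le_ne_top ENNReal.one_ne_top h1

theorem pfs_alK_mono (K : ℝ → ℝ) : Monotone (scAlK 1 K) := by
  intro s t hst
  unfold scAlK
  exact ENNReal.toReal_mono (pfs_alK_fin K t) (measure_mono fun v hv => ⟨hv.1, hv.2.trans hst⟩)

theorem pfs_alK_coef (K : ℝ → ℝ) (τ : ℝ) : ScCoef 1 τ (scAlK 1 K) :=
  ⟨(pfs_alK_mono K).monotoneOn _, fun t _ => ⟨pfs_alK_nn K t, pfs_alK_le_one K t⟩⟩

/-- `K u ≤ t ⟹ u ≤ α_K(t)` -/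
theorem pfs_alK_ge {K : ℝ → ℝ} (hK : MonotoneOn K (Icc 0 1)) {u t : ℝ} (hu : u ∈ Icc (0:ℝ) 1) (h : K u ≤ t) : u ≤ scAlK 1 K t := by
  unfold scAlK
  have h1 : volume (Ioo (0:ℝ) u) ≤ volume {v : ℝ | v ∈ Ioo (0:ℝ) 1 ∧ K v ≤ t} :=
    measure_mono fun v hv => ⟨⟨hv.1, hv.2.trans_le hu.2⟩, (hK ⟨hv.1.le, (hv.2.trans_le hu.2).le⟩ hu hv.2.le).trans h⟩
  have h2 : volume (Ioo (0:ℝ) u) = ENNReal.ofReal u := by simp
  rw [h2] at h1
  exact (ENNReal.ofReal_le_iff_le_toReal (pfs_alK_fin K t)).1 h1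

/-- `t < K u ⟹ α_K(t) ≤ u` -/
theorem pfs_alK_le {K : ℝ → ℝ} (hK : MonotoneOn K (Icc 0 1)) {u t : ℝ} (hu : u ∈ Icc (0:ℝ) 1) (h : t < K u) : scAlK 1 K t ≤ u := by
  unfold scAlK
  have h1 : volume {v : ℝ | v ∈ Ioo (0:ℝ) 1 ∧ K v ≤ t} ≤ volume (Ioo (0:ℝ) u) := by
    refine measure_mono fun v hv => ⟨hv.1.1, ?_⟩
    by_contra hc
    exact absurd ((hK hu ⟨hv.1.1.le, hv.1.2.le⟩ (not_lt.1 hc)).trans hv.2) (not_le.2 h)
  have h2 : volume (Ioo (0:ℝ) u) = ENNReal.ofReal u := by simp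
  rw [h2] at h1
  exact ENNReal.toReal_le_of_le_ofReal hu.1 h1

/-! ## the scalar fields in scalar time -/

section fields

variable (n : ℕ) (b h : ℝ → ℝ) (τ T : ℝ)

/-- `α_K(q) = |{u : K_u/T ≤ q}|` -/
def pfsAK (q : ℝ) : ℝ := pfAl n b h (T * q)
/-- `Γ^(q) = Γ(T q)` -/
def pfsGm (q : ℝ) : ℝ := pfGh n b h τ (T * q)
/-- `Γ^'(q) = T E V_zz²` -/
def pfsGm1 (q : ℝ) : ℝ := T * pfM2 n b h τ (T * q)
/-- `E V_zzz(q,Z_q)²` -/
def pfsQ3 (q : ℝ) : ℝ := pfN3 n b h τ (T * q)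
/-- `E V_zz(q,Z_q)³` -/
def pfsQ2 (q : ℝ) : ℝ := pfM3 n b h τ (T * q)
/-- `V_zz(0,0)` -/
def pfsA2 : ℝ := scaD 2 (scLC 1) (pfAl n b h) τ 0 0
/-- `V_zzzz(0,0)` -/
def pfsA4 : ℝ := scaD 4 (scLC 1) (pfAl n b h) τ 0 0

end fields

theorem pfs_eqns_cite : True := by
  have := @pfsAK.eq_1; have := @pfsGm.eq_1; have := @pfsGm1.eq_1; have := @pfsQ3.eq_1; have := @pfsQ2.eq_1; have := @pfsA2.eq_1; have := @pfsA4.eq_1
  trivial

variable {n : ℕ} {b h : ℝ → ℝ} {τ T : ℝ}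

theorem pfs_aK_mono (hT : 0 ≤ T) : Monotone (pfsAK n b h T) := fun _ _ hq =>
  pfs_alK_mono _ (mul_le_mul_of_nonneg_left hq hT)

theorem pfs_aK_nn (q : ℝ) : 0 ≤ pfsAK n b h T q := pfs_alK_nn _ _

theorem pfs_aK_le_one (q : ℝ) : pfsAK n b h T q ≤ 1 := pfs_alK_le_one _ _

theorem pfs_aK_ge (hT : 0 < T) (hK : MonotoneOn (pfKu n b h) (Icc 0 1)) {u : ℝ} (hu : u ∈ Icc (0:ℝ) 1) {q : ℝ}
    (hq : pfKu n b h u / T ≤ q) : u ≤ pfsAK n b h T q :=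
  pfs_alK_ge hK hu (by rw [div_le_iff₀ hT] at hq; linarith)

theorem pfs_aK_le (hT : 0 < T) (hK : MonotoneOn (pfKu n b h) (Icc 0 1)) {u : ℝ} (hu : u ∈ Icc (0:ℝ) 1) {q : ℝ}
    (hq : q < pfKu n b h u / T) : pfsAK n b h T q ≤ u :=
  pfs_alK_le hK hu (by rw [lt_div_iff₀ hT] at hq; linarith)

/-- `Γ^(K/T) = Γ(K)` -/
theorem pfs_Gm_div (hT : 0 < T) (t : ℝ) : pfsGm n b h τ T (t / T) = pfGh n b h τ t := by
  unfold pfsGm
  rw [mul_div_cancel₀ _ hT.ne']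

/-- **all analytic scalar fields of `RgPhy.Ok` and `RgPhyHyp.sc`** (with `top = 1`), uniformly in the path and in `T ∈ (0,τ]` -/
theorem pfs_fields (hSc : PfImpSc) (hτ : 0 < τ) : ∃ cs Cs : ℝ, 0 < cs ∧ cs ≤ Cs ∧ ∀ (n : ℕ) (b h : ℝ → ℝ) (T : ℝ), 0 < T → T ≤ τ →
    (cs ≤ pfsA2 n b h τ ∧ pfsA2 n b h τ ≤ Cs) ∧ (cs ≤ -pfsA4 n b h τ ∧ -pfsA4 n b h τ ≤ Cs) ∧
    ContinuousOn (pfsQ3 n b h τ T) (Icc 0 1) ∧ ContinuousOn (pfsQ2 n b h τ T) (Icc 0 1) ∧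
    (∀ q ∈ Icc (0:ℝ) 1, pfsGm n b h τ T q = ∫ σ in (0:ℝ)..q, pfsGm1 n b h τ T σ) ∧
    pfsGm1 n b h τ T 0 = T * pfsA2 n b h τ ^ 2 ∧
    (∀ q ∈ Icc (0:ℝ) 1, pfsGm1 n b h τ T q = pfsGm1 n b h τ T 0
      + ∫ σ in (0:ℝ)..q, T ^ 2 * (pfsQ3 n b h τ T σ - 2 * pfsAK n b h T σ * pfsQ2 n b h τ T σ)) ∧
    (∀ q ∈ Icc (0:ℝ) 1, |pfsQ3 n b h τ T q - T * pfsA4 n b h τ ^ 2 * q| ≤ Cs * τ ^ 2 * q ^ 2 ∧
      |pfsQ2 n b h τ T q - pfsA2 n b h τ ^ 3| ≤ Cs * τ * q) := by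
  obtain ⟨cs, Cs, hcs, hcC, H⟩ := hSc τ hτ
  refine ⟨cs, Cs, hcs, hcC, fun n b h T hT hTτ => ?_⟩
  obtain ⟨ha2, ha4, hN3, hM3, hGam, hM20, hM2, hN3e, hM3e⟩ := H (pfAl n b h) (pfs_alK_coef _ τ)
  have hCs : 0 ≤ Cs := hcs.le.trans hcC
  have hmaps : MapsTo (fun q : ℝ => T * q) (Icc 0 1) (Icc 0 τ) := fun q hq =>
    ⟨mul_nonneg hT.le hq.1, (mul_le_of_le_one_right hT.le hq.2).trans hTτ⟩
  refine ⟨ha2, ha4, hN3.comp (by fun_prop) hmaps, hM3.comp (by fun_prop) hmaps, ?_, ?_, ?_, ?_⟩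
  · intro q hq
    show scaGam (scLC 1) (pfAl n b h) τ (T * q) = ∫ σ in (0:ℝ)..q, T * scaM2 (scLC 1) (pfAl n b h) τ (T * σ)
    rw [hGam _ (hmaps hq), intervalIntegral.integral_const_mul,
      intervalIntegral.mul_integral_comp_mul_left (f := fun s => scaM2 (scLC 1) (pfAl n b h) τ s), mul_zero]
  · show T * scaM2 (scLC 1) (pfAl n b h) τ (T * 0) = _
    rw [mul_zero, hM20]
    rfl
  · intro q hq
    show T * scaM2 (scLC 1) (pfAl n b h) τ (T * q) = T * scaM2 (scLC 1) (pfAl n b h) τ (T * 0)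
      + ∫ σ in (0:ℝ)..q, T ^ 2 * (scaN3 (scLC 1) (pfAl n b h) τ (T * σ) - 2 * pfAl n b h (T * σ) * scaM3 (scLC 1) (pfAl n b h) τ (T * σ))
    have e := intervalIntegral.mul_integral_comp_mul_left (a := 0) (b := q) (c := T)
      (f := fun s => scaN3 (scLC 1) (pfAl n b h) τ s - 2 * pfAl n b h s * scaM3 (scLC 1) (pfAl n b h) τ s)
    rw [mul_zero] at e
    have e2 := hM2 _ (hmaps hq)
    simp only [] at e2
    rw [e2, mul_zero, intervalIntegral.integral_const_mul, ← e]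
    ring
  · intro q hq
    have h1 := hN3e _ (hmaps hq)
    have h2 := hM3e _ (hmaps hq)
    constructor
    · show |scaN3 (scLC 1) (pfAl n b h) τ (T * q) - T * scaD 4 (scLC 1) (pfAl n b h) τ 0 0 ^ 2 * q| ≤ _
      have e : T * scaD 4 (scLC 1) (pfAl n b h) τ 0 0 ^ 2 * q = scaD 4 (scLC 1) (pfAl n b h) τ 0 0 ^ 2 * (T * q) := by ring
      rw [e]
      refine h1.trans ?_
      have : (T * q) ^ 2 ≤ τ ^ 2 * q ^ 2 := by
        rw [mul_pow]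
        exact mul_le_mul_of_nonneg_right (pow_le_pow_left₀ hT.le hTτ 2) (sq_nonneg q)
      calc Cs * (T * q) ^ 2 ≤ Cs * (τ ^ 2 * q ^ 2) := mul_le_mul_of_nonneg_left this hCs
        _ = Cs * τ ^ 2 * q ^ 2 := by ring
    · refine h2.trans ?_
      calc Cs * (T * q) ≤ Cs * (τ * q) := mul_le_mul_of_nonneg_left (mul_le_mul_of_nonneg_right hTτ hq.1) hCs
        _ = Cs * τ * q := by ring

/-- the range of the slope `κ = T a4²/(2 a2³)` -/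
theorem pfs_kappa_rng {cs Cs T a2 a4 : ℝ} (hcs : 0 < cs) (hT : 0 < T) (h2 : cs ≤ a2 ∧ a2 ≤ Cs) (h4 : cs ≤ -a4 ∧ -a4 ≤ Cs) :
    T * cs ^ 2 / (2 * Cs ^ 3) ≤ T * a4 ^ 2 / (2 * a2 ^ 3) ∧ T * a4 ^ 2 / (2 * a2 ^ 3) ≤ T * Cs ^ 2 / (2 * cs ^ 3) := by
  have ha2 : 0 < a2 := hcs.trans_le h2.1
  have hCs : 0 < Cs := ha2.trans_le h2.2
  have e4 : a4 ^ 2 = (-a4) ^ 2 := by ring
  have l4 : cs ^ 2 ≤ a4 ^ 2 := by rw [e4]; exact pow_le_pow_left₀ hcs.le h4.1 2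
  have u4 : a4 ^ 2 ≤ Cs ^ 2 := by rw [e4]; exact pow_le_pow_left₀ (hcs.le.trans h4.1) h4.2 2
  have l2 : cs ^ 3 ≤ a2 ^ 3 := pow_le_pow_left₀ hcs.le h2.1 3
  have u2 : a2 ^ 3 ≤ Cs ^ 3 := pow_le_pow_left₀ ha2.le h2.2 3
  constructor
  · exact div_le_div₀ (by positivity) (mul_le_mul_of_nonneg_left l4 hT.le) (by positivity) (by linarith)
  · exact div_le_div₀ (by positivity) (mul_le_mul_of_nonneg_left u4 hT.le) (by positivity) (by linarith)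

/-! ## the clocks and the moments of the instance (right continuous bare clocks; measurability) -/

section clk

variable (D : P6D) (lam : ℝ) (r : ℝ → ℝ)

/-- the quantile, read on the working interval only -/
def pfsR (u : ℝ) : ℝ := r (max D.P.u0 (min u 1))
/-- the bare matrix clock of the instance, right continuous: `b(u+) + e(r(u))` -/
def pfsB0 (u : ℝ) : ℝ := ghAt 1 (D.Pb lam r) (ghPosA u) + D.P.e lam (pfsR D r u)
/-- the bare field clock of the instance, right continuous: `h(u+) - e(r(u)) r(u)` -/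
def pfsH0 (u : ℝ) : ℝ := ghAt 1 (D.Ph lam r) (ghPosA u) - D.P.e lam (pfsR D r u) * pfsR D r u
/-- `D_u`, read on `[0,1]` only -/
def pfsDd (u : ℝ) : ℝ := pfDl D lam r (max 0 (min u 1))

end clk

theorem pfs_clk_eqns_cite : True := by
  have := @pfsR.eq_1; have := @pfsB0.eq_1; have := @pfsH0.eq_1; have := @pfsDd.eq_1
  trivial

section clk2

variable {D : P6D} {lam : ℝ} {r : ℝ → ℝ}

theorem pfs_R_of_mem {u : ℝ} (hu : u ∈ Icc D.P.u0 1) : pfsR D r u = r u := by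
  unfold pfsR
  rw [min_eq_left hu.2, max_eq_right hu.1]

theorem pfs_Dd_of_mem {u : ℝ} (hu : u ∈ Icc (0:ℝ) 1) : pfsDd D lam r u = pfDl D lam r u := by
  unfold pfsDd
  rw [min_eq_left hu.2, max_eq_right hu.1]

theorem pfs_Dd_nn (u : ℝ) : 0 ≤ pfsDd D lam r u := Real.sqrt_nonneg _

theorem pfs_clampI_mem {a b : ℝ} (hab : a ≤ b) (u : ℝ) : max a (min u b) ∈ Icc a b :=
  ⟨le_max_left _ _, max_le hab (min_le_right _ _)⟩

theorem pfs_clampI_mono (a b : ℝ) : Monotone fun u : ℝ => max a (min u b) := fun _ _ h =>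
  max_le_max_left _ (min_le_min_right _ h)

theorem pfs_R_mono (hu0 : D.P.u0 ≤ 1) (hr : MonotoneOn r (Icc D.P.u0 1)) : Monotone (pfsR D r) := fun _ _ h =>
  hr (pfs_clampI_mem hu0 _) (pfs_clampI_mem hu0 _) (pfs_clampI_mono _ _ h)

theorem pfs_atA_mono {c : ℝ → ℝ} (hc : GhClk1 1 c) : Monotone fun u => ghAt 1 c (ghPosA u) := by
  have : (fun u => ghAt 1 c (ghPosA u)) = Function.rightLim (ghClamp 1 c) := funext fun u => gh_os_at_posA 1 c u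
  rw [this]
  exact (gh_os_clamp_mono zero_le_one hc).rightLim

theorem pfs_atA_nn {c : ℝ → ℝ} (hc : GhClk1 1 c) (u : ℝ) : 0 ≤ ghAt 1 c (ghPosA u) :=
  gh_os_at_nonneg zero_le_one hc (by simp [ghPosA, GhPos.lam])

theorem pfs_B0_meas (hb : GhClk1 1 (D.Pb lam r)) (hu0 : D.P.u0 ≤ 1) (hr : MonotoneOn r (Icc D.P.u0 1)) :
    Measurable (pfsB0 D lam r) :=
  (pfs_atA_mono hb).measurable.add ((cm_e_cont (P := D.P) lam).measurable.comp (pfs_R_mono hu0 hr).measurable)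

theorem pfs_H0_meas (hh : GhClk1 1 (D.Ph lam r)) (hu0 : D.P.u0 ≤ 1) (hr : MonotoneOn r (Icc D.P.u0 1)) :
    Measurable (pfsH0 D lam r) :=
  (pfs_atA_mono hh).measurable.sub
    (((cm_e_cont (P := D.P) lam).measurable.comp (pfs_R_mono hu0 hr).measurable).mul (pfs_R_mono hu0 hr).measurable)

/-- `K_u = h_u + b_u S_u` with `b = b0 - e(r)`, `h = h0 + e(r) r`: pure algebra for the right continuous bare clocks -/
theorem pfs_K_eq {u : ℝ} (hu : u ∈ Icc D.P.u0 1) :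
    pfK D lam r u = pfsH0 D lam r u + D.P.e lam (r u) * r u + (pfsB0 D lam r u - D.P.e lam (r u)) * pfS D lam r u := by
  unfold pfK pfKu pfKp pfsH0 pfsB0 pfS
  rw [pfs_R_of_mem hu]
  ring

/-- the same at the mass `α(ρ)` -/
theorem pfs_K_eq_al {cE D0 : ℝ} (hc : 0 < cE) (hP : D.P.Ok cE D0) (q : CmQ D.P) {ρ : ℝ} (hρ : ρ ∈ Icc D.P.rmin 1) :
    pfK D lam q.r (q.al ρ) = pfsH0 D lam q.r (q.al ρ) + D.P.e lam ρ * ρ
      + (pfsB0 D lam q.r (q.al ρ) - D.P.e lam ρ) * pfS D lam q.r (q.al ρ) := by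
  have h := pfs_K_eq (D := D) (lam := lam) (r := q.r) (cm_q_al_mem hc hP q hρ)
  rwa [q.r_al ρ hρ] at h

theorem pfs_posA_le {u v : ℝ} (h : u ≤ v) : ghPosA u ≤ ghPosA v := by
  rw [gh_os_pos_le_iff]
  rcases h.lt_or_eq with h | h
  · exact Or.inl h
  · exact Or.inr ⟨h, le_rfl⟩

variable (hn : 0 < D.P.n) (hb : GhClk1 1 (D.Pb lam r)) (hh : GhClk1 1 (D.Ph lam r))

include hn hb hh

theorem pfs_S_mono : MonotoneOn (pfS D lam r) (Icc 0 1) := fun _ hu _ hv huv =>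
  (exit_clk_SB hn one_pos ⟨hb, hh⟩ (gh_os_posA_ok hu.1 hu.2) (gh_os_posA_ok hv.1 hv.2) (pfs_posA_le huv)).2.1

theorem pfs_B_mono : MonotoneOn (pfB D lam r) (Icc 0 1) := fun _ hu _ hv huv =>
  (exit_clk_SB hn one_pos ⟨hb, hh⟩ (gh_os_posA_ok hu.1 hu.2) (gh_os_posA_ok hv.1 hv.2) (pfs_posA_le huv)).2.2.1

theorem pfs_S_nn {u : ℝ} (hu : u ∈ Icc (0:ℝ) 1) : 0 ≤ pfS D lam r u :=
  (exit_clk_SB hn one_pos ⟨hb, hh⟩ (gh_os_posA_ok hu.1 hu.2) (gh_os_posA_ok hu.1 hu.2) le_rfl).1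

theorem pfs_S_sq {u : ℝ} (hu : u ∈ Icc (0:ℝ) 1) : pfS D lam r u ^ 2 ≤ pfB D lam r u :=
  (exit_clk_SB hn one_pos ⟨hb, hh⟩ (gh_os_posA_ok hu.1 hu.2) (gh_os_posA_ok hu.1 hu.2) le_rfl).2.2.2.1

theorem pfs_B_le {u : ℝ} (hu : u ∈ Icc (0:ℝ) 1) : pfB D lam r u ≤ 1 :=
  (exit_clk_SB hn one_pos ⟨hb, hh⟩ (gh_os_posA_ok hu.1 hu.2) (gh_os_posA_ok hu.1 hu.2) le_rfl).2.2.2.2

/-- `B = S² + D²` -/
theorem pfs_B_eq {u : ℝ} (hu : u ∈ Icc (0:ℝ) 1) : pfB D lam r u = pfS D lam r u ^ 2 + pfDl D lam r u ^ 2 := by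
  unfold pfDl
  rw [Real.sq_sqrt (sub_nonneg.2 (pfs_S_sq hn hb hh hu))]
  ring

theorem pfs_Dd_meas : Measurable (pfsDd D lam r) := by
  have hS : Measurable fun u : ℝ => pfS D lam r (max 0 (min u 1)) :=
    (show Monotone fun u : ℝ => pfS D lam r (max 0 (min u 1)) from fun _ _ h =>
      pfs_S_mono hn hb hh (pfs_clampI_mem zero_le_one _) (pfs_clampI_mem zero_le_one _) (pfs_clampI_mono _ _ h)).measurable
  have hB : Measurable fun u : ℝ => pfB D lam r (max 0 (min u 1)) :=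
    (show Monotone fun u : ℝ => pfB D lam r (max 0 (min u 1)) from fun _ _ h =>
      pfs_B_mono hn hb hh (pfs_clampI_mem zero_le_one _) (pfs_clampI_mem zero_le_one _) (pfs_clampI_mono _ _ h)).measurable
  exact (hB.sub (hS.pow_const 2)).sqrt

theorem pfs_K_mono : MonotoneOn (pfK D lam r) (Icc 0 1) := fun u hu v hv huv => by
  unfold pfK pfKu pfKp
  exact add_le_add (pfs_atA_mono hh huv)
    (mul_le_mul (pfs_atA_mono hb huv) (pfs_S_mono hn hb hh hu hv huv) (pfs_S_nn hn hb hh hu) (pfs_atA_nn hb v))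

theorem pfs_K_nn {u : ℝ} (hu : u ∈ Icc (0:ℝ) 1) : 0 ≤ pfK D lam r u := by
  unfold pfK pfKu pfKp
  exact add_nonneg (pfs_atA_nn hh u) (mul_nonneg (pfs_atA_nn hb u) (pfs_S_nn hn hb hh hu))

end clk2

/-! ## (4) for the right continuous bare clocks -/

/-- the right continuous bare clocks are the right limits of the bare clocks of the call -/
theorem pfs_B0_tendsto {D : P6D} {lam cE D0 : ℝ} (hc : 0 < cE) (hP : D.P.Ok cE D0) (q : CmQ D.P) (hb : GhClk1 1 (D.Pb lam q.r))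
    (hh : GhClk1 1 (D.Ph lam q.r)) {u : ℝ} (hu0 : D.P.u0 < u) (hu1 : u < 1) :
    Tendsto D.b0 (𝓝[>] u) (𝓝 (pfsB0 D lam q.r u)) ∧ Tendsto D.h0 (𝓝[>] u) (𝓝 (pfsH0 D lam q.r u)) := by
  have hu : u ∈ Icc D.P.u0 1 := ⟨hu0.le, hu1.le⟩
  have h00 : 0 ≤ D.P.u0 := hP.u00
  have hrc : ContinuousAt q.r u := (cm_q_r_cont hc hP q).continuousAt (Icc_mem_nhds hu0 hu1)
  have hr : Tendsto q.r (𝓝[>] u) (𝓝 (q.r u)) := hrc.tendsto.mono_left nhdsWithin_le_nhds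
  have he : Tendsto (fun v => D.P.e lam (q.r v)) (𝓝[>] u) (𝓝 (D.P.e lam (q.r u))) :=
    ((cm_e_cont (P := D.P) lam).tendsto _).comp hr
  have hev : ∀ᶠ v in 𝓝[>] u, v ∈ Ioo u 1 := Ioo_mem_nhdsGT hu1
  constructor
  · have h1 := ((gh_os_clamp_mono zero_le_one hb).tendsto_rightLim u).add he
    have e : pfsB0 D lam q.r u = Function.rightLim (ghClamp 1 (D.Pb lam q.r)) u + D.P.e lam (q.r u) := by
      unfold pfsB0
      rw [pfs_R_of_mem hu, gh_os_at_posA]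
    rw [e]
    refine h1.congr' ?_
    filter_upwards [hev] with v hv
    have hv0 : D.P.u0 ≤ v := hu0.le.trans hv.1.le
    unfold ghClamp P6D.Pb
    rw [if_neg (not_lt.2 (h00.trans hv0)), min_eq_left hv.2.le, if_pos hv0]
    ring
  · have h1 := ((gh_os_clamp_mono zero_le_one hh).tendsto_rightLim u).sub (he.mul hr)
    have e : pfsH0 D lam q.r u = Function.rightLim (ghClamp 1 (D.Ph lam q.r)) u - D.P.e lam (q.r u) * q.r u := by
      unfold pfsH0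
      rw [pfs_R_of_mem hu, gh_os_at_posA]
    rw [e]
    refine h1.congr' ?_
    filter_upwards [hev] with v hv
    have hv0 : D.P.u0 ≤ v := hu0.le.trans hv.1.le
    unfold ghClamp P6D.Ph
    rw [if_neg (not_lt.2 (h00.trans hv0)), min_eq_left hv.2.le, if_pos hv0]
    ring

/-- **PE (4) on the bands of the test scale**, for the right continuous bare clocks (field `bare` of `RgPhyHyp`) -/
theorem pfs_bare {U : Ultrafilter ℕ} {c : P6C} {D : ℕ → P6D} {lam x : ℕ → ℝ} {r : ℕ → ℝ → ℝ} (h : PfiNum U c D lam x)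
    (hfe : ∀ᶠ k in U, (D k).P.Fe (r k)) (hfam : ∀ᶠ k in U, (D k).Fam (lam k)) (c' C' ε : ℝ) (hc' : 0 < c') (hε : 0 < ε) :
    ∀ᶠ k in U, ∀ u : ℝ, c' * x k ≤ u → u ≤ C' * x k →
      |pfsB0 (D k) (lam k) (r k) u - (D k).T| ≤ ε * x k ^ 2 ∧ |pfsH0 (D k) (lam k) (r k) u| ≤ ε * x k ^ 3 := by
  have hu0 : ∀ᶠ k in U, (D k).P.u0 / x k < c' := (pfi_u0 h).eventually (gt_mem_nhds hc')
  have hx1 : ∀ᶠ k in U, (|C'| + 1) * x k < 1 := by
    have : Tendsto (fun k => (|C'| + 1) * x k) U (𝓝 ((|C'| + 1) * 0)) := h.x_lim.const_mul _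
    rw [mul_zero] at this
    exact this.eventually (gt_mem_nhds one_pos)
  filter_upwards [pfi_ep4 h c' (|C'| + 1) ε hc' hε, hu0, hx1, h.x_pos, hfe, hfam, h.seq.ok] with k hk hu0 hx1 hx hfe hfam hok u hcu hCu
  obtain ⟨q, hq⟩ := hfe
  rw [← hq]
  have hadm := hfam q.r ⟨q, rfl⟩
  have h1 : (D k).P.u0 < u := by
    rw [div_lt_iff₀ hx] at hu0
    exact hu0.trans_le hcu
  have h2 : u < (|C'| + 1) * x k := by
    have : C' * x k ≤ |C'| * x k := mul_le_mul_of_nonneg_right (le_abs_self _) hx.le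
    nlinarith
  have h3 : u < 1 := h2.trans hx1
  obtain ⟨tb, th⟩ := pfs_B0_tendsto h.cok.cE_pos hok q hadm.1 hadm.2 h1 h3
  have hev : ∀ᶠ v in 𝓝[>] u, v ∈ Ioo u ((|C'| + 1) * x k) := Ioo_mem_nhdsGT h2
  constructor
  · refine le_of_tendsto ((tb.sub_const _).abs) ?_
    filter_upwards [hev] with v hv
    exact (hk v (h1.trans hv.1) (hv.2.trans hx1) (hcu.trans hv.1.le) hv.2.le).1
  · refine le_of_tendsto th.abs ?_
    filter_upwards [hev] with v hv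
    exact (hk v (h1.trans hv.1) (hv.2.trans hx1) (hcu.trans hv.1.le) hv.2.le).2

end

end Claimed.Agent.R286
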