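import Claimed.Agent.R286.Prof.InstGeo
import Claimed.Agent.R286.Rig.PhyMain
import Claimed.Agent.R286.Prof.InstSc
import Claimed.Agent.R286.Exit.CmpRaw
import Claimed.Agent.R286.Exit.CmpDir
import Claimed.Agent.R286.Exit.CmpGeo

/-!
# Row 286 (S0533), PE Section 5, unit PROF, file InstSk: THE SK INSTANCE OF RIG, ONE SYSTEM      (owner helper166; head helper98; prefix `pfk_`, types `Pfk*`)

* `pfkI D lam q : CmI`      the comparison instance of PE Sec. 3 of an instance `D : P6D` of Sec. 6 at the strength `lam` and the feasible quantile `q`   (`I.b = D.Pb lam q.r`, `I.h = D.Ph lam q.r` by `rfl`);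
* `pfkSc n b h τ : RgSc`    the scalar curves in variance time (`pfAl, pfGh, pfM2, pfM3, pfN3`, Prof/Defs);      `pfk_sc_ok`: `RgSc.Ok` + ranges of `a2, a4` from `PfImpSc`;
* `pfkSys D lam x τ q H J : PfiSys D lam x`      the system (Prof/InstGeo) on the SK numbers;      `PfkGood` = what Step 0 + Lemma 3.3 deliver for one `k`;      `pfk_ok : PfkGood .. → Y.Ok ..`;
* one-system forms of (12) `pfk_raw_one`, (19) mass `pfk_Dmass_one`, (19) radius `pfk_Drad_one`.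
The sequence level (Step 0, limits, assembly, `pfk_rig`, `pfk_rig_lin`) is in Prof/InstMain.lean.
FIRST SECTION (model free): `PfiSeq U c D lam x E c1 C1 C0 Csc a2 a4` = along the ultrafilter every `E k` is the record `Y.phy` of a system `Y : PfiSys (D k) (lam k) (x k)` with `Y.Ok` (Prof/InstGeo), the numbers obey `PfiNum` (Prof/InstNum),
`a2, a4` converge, and the FIVE analytic inputs hold in the literal forms of `RgPhyHyp` (Rig/Phy, helper24): `raw` (12), `clo` (22) modulus form, `bare` (4), `D_rad`, `D_mass` (19).      `pfi_hyp`, `pfi_main`, `pfi_lin`, `pfi_lin_slope`.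
-/

set_option autoImplicit false

namespace Claimed.Agent.R286

open Filter Topology Set MeasureTheory

noncomputable section

/-! ## A SEQUENCE OF SYSTEMS (model free): `PfiSeq`, `pfi_hyp : PfiSeq .. → RgPhyHyp U E c.Tinf a2 a4 cmF cmP` (25 fields proved, 5 analytic inputs), `pfi_main`, `pfi_lin`, `pfi_lin_slope` -/

section seq

/-- **a sequence of systems with the five analytic inputs** -/
structure PfiSeq (U : Ultrafilter ℕ) (c : P6C) (D : ℕ → P6D) (lam x : ℕ → ℝ) (E : ℕ → RgPhy) (c1 C1 C0 Csc a2 a4 : ℝ) : Prop where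
  num : PfiNum U c D lam x
  c1_pos : 0 < c1
  C1_pos : 0 < C1
  C0_pos : 0 < C0
  sys : ∀ᶠ k in U, ∃ Y : PfiSys (D k) (lam k) (x k), Y.Ok c.cE c.D0 c1 C1 C0 Csc ∧ E k = Y.phy
  a2_pos : 0 < a2
  a4_ne : a4 ≠ 0
  a2_lim : Tendsto (fun k => (E k).a2) U (𝓝 a2)
  a4_lim : Tendsto (fun k => (E k).a4) U (𝓝 a4)
  /-- PE (12) -/
  raw : ∃ Cr : ℝ, ∀ᶠ n in U, ∀ u ∈ Icc (0:ℝ) 1, (E n).S u ≤ Cr * (u + (E n).x) ∧ (E n).Dd u ≤ Cr * (u + (E n).x)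
  /-- PE (22), modulus form -/
  clo : ∀ c C : ℝ, 0 < c → ∃ (ω : ℝ → ℝ) (η : ℕ → ℝ), Monotone ω ∧ Tendsto ω (𝓝[>] 0) (𝓝 0) ∧ Tendsto η U (𝓝 0) ∧
    ∀ᶠ n in U, ∀ u, c * (E n).x ≤ u → u ≤ C * (E n).x →
      |(E n).S u - (E n).Gm ((E n).K u / (E n).T)| ≤ (E n).x ^ 3 * (η n + ω ((E n).Dd u / (E n).x))
  /-- PE (4) -/
  bare : ∀ c C ε : ℝ, 0 < c → 0 < ε → ∀ᶠ n in U, ∀ u, c * (E n).x ≤ u → u ≤ C * (E n).x →
    |(E n).b0 u - (E n).T| ≤ ε * (E n).x ^ 2 ∧ |(E n).h0 u| ≤ ε * (E n).x ^ 3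
  /-- PE (19), radius version -/
  D_rad : ∀ c C : ℝ, 0 < c → Tendsto (fun n => (∫ ρ in (E n).I c C, (E n).Dd ((E n).m ρ) ^ 2) / (E n).x ^ 3) U (𝓝 0)
  /-- PE (19), mass version -/
  D_mass : ∀ c C : ℝ, 0 < c →
    Tendsto (fun n => (∫ u in Icc (c * (E n).x) (C * (E n).x), (E n).Dd u ^ 2) / (E n).x ^ 3) U (𝓝 0)

variable {U : Ultrafilter ℕ} {c : P6C} {D : ℕ → P6D} {lam x : ℕ → ℝ} {E : ℕ → RgPhy} {c1 C1 C0 Csc a2 a4 : ℝ}

theorem pfi_top_lim (h : PfiNum U c D lam x) : Tendsto (fun k => 1 / x k) U atTop := by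
  have h1 : Tendsto x U (𝓝[>] 0) := tendsto_nhdsWithin_iff.2 ⟨h.x_lim, h.x_pos⟩
  have h2 := tendsto_inv_nhdsGT_zero.comp h1
  refine h2.congr fun k => ?_
  simp [one_div]

/-- **the hypotheses of the unscaled rigidity theorem for the PE instance** -/
theorem pfi_hyp (h : PfiSeq U c D lam x E c1 C1 C0 Csc a2 a4) : RgPhyHyp (U : Filter ℕ) E c.Tinf a2 a4 cmF cmP where
  T_pos := by linarith [h.num.cok.T_gt]
  a2_pos := h.a2_pos
  a4_ne := h.a4_ne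
  ok := by
    refine ⟨c1, C1, C0, c.D0 ^ 2, h.c1_pos, h.C1_pos, h.C0_pos, pow_pos h.num.cok.D0_pos 2, ?_⟩
    filter_upwards [h.sys] with k ⟨Y, hY, e⟩
    rw [e]
    exact pfi_phy_ok hY
  x_lim := h.num.x_lim.congr' (by filter_upwards [h.sys] with k ⟨Y, hY, e⟩; rw [e]; rfl)
  T_lim := (pfi_T h.num).congr' (by filter_upwards [h.sys] with k ⟨Y, hY, e⟩; rw [e]; rfl)
  a2_lim := h.a2_lim
  a4_lim := h.a4_lim
  top_lim := (pfi_top_lim h.num).congr' (by filter_upwards [h.sys] with k ⟨Y, hY, e⟩; rw [e]; rfl)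
  w_lim := (pfi_ell h.num).congr' (by filter_upwards [h.sys] with k ⟨Y, hY, e⟩; rw [e]; rfl)
  u0_lim := (pfi_u0 h.num).congr' (by filter_upwards [h.sys] with k ⟨Y, hY, e⟩; rw [e]; rfl)
  raw := h.raw
  clo := h.clo
  bare := h.bare
  D_rad := h.D_rad
  D_mass := h.D_mass
  floor := by
    refine ⟨fun k => (D k).P.N ^ (-(D k).P.dl) * (D k).P.us, ?_, ?_⟩
    · exact (pfi_floor h.num).congr' (by filter_upwards [h.sys] with k ⟨Y, hY, e⟩; rw [e]; rfl)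
    · filter_upwards [h.sys] with k ⟨Y, hY, e⟩
      rw [e]
      exact pfi_floor_vol hY
  sc := by
    refine ⟨|Csc| * (c.Tinf + 1) ^ 2 + |Csc| * (c.Tinf + 1), 1, one_pos, ?_⟩
    filter_upwards [h.sys, pfi_T_pos h.num] with k ⟨Y, hY, e⟩ hT q hq
    rw [e]
    have hT0 : 0 < (D k).T := by linarith [hT.1]
    have hm := pfi_T_maps hY hq
    have h1 := hY.sc.N3_exp _ hm
    have h2 := hY.sc.M3_exp _ hm
    have hTq : (D k).T * q ≤ (c.Tinf + 1) * q := mul_le_mul_of_nonneg_right hT.2.le hq.1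
    have hq2 : q ^ 2 ≤ q := by nlinarith [hq.1, hq.2]
    have hA := abs_nonneg Csc
    have hTi : 0 < c.Tinf + 1 := by linarith
    constructor
    · show |Y.Sc.N3 ((D k).T * q) - (D k).T * Y.Sc.a4 ^ 2 * q| ≤ _
      have e1 : (D k).T * Y.Sc.a4 ^ 2 * q = Y.Sc.a4 ^ 2 * ((D k).T * q) := by ring
      rw [e1]
      refine h1.trans ?_
      have h3 : ((D k).T * q) ^ 2 ≤ ((c.Tinf + 1) * q) ^ 2 := pow_le_pow_left₀ hm.1 hTq 2
      calc Csc * ((D k).T * q) ^ 2 ≤ |Csc| * ((D k).T * q) ^ 2 := mul_le_mul_of_nonneg_right (le_abs_self _) (sq_nonneg _)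
        _ ≤ |Csc| * ((c.Tinf + 1) * q) ^ 2 := mul_le_mul_of_nonneg_left h3 hA
        _ = |Csc| * (c.Tinf + 1) ^ 2 * q ^ 2 := by ring
        _ ≤ (|Csc| * (c.Tinf + 1) ^ 2 + |Csc| * (c.Tinf + 1)) * q ^ 2 :=
          mul_le_mul_of_nonneg_right (by have := mul_nonneg hA hTi.le; linarith) (sq_nonneg _)
    · show |Y.Sc.M3 ((D k).T * q) - Y.Sc.a2 ^ 3| ≤ _
      refine h2.trans ?_
      calc Csc * ((D k).T * q) ≤ |Csc| * ((D k).T * q) := mul_le_mul_of_nonneg_right (le_abs_self _) hm.1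
        _ ≤ |Csc| * ((c.Tinf + 1) * q) := mul_le_mul_of_nonneg_left hTq hA
        _ = |Csc| * (c.Tinf + 1) * q := by ring
        _ ≤ (|Csc| * (c.Tinf + 1) ^ 2 + |Csc| * (c.Tinf + 1)) * q :=
          mul_le_mul_of_nonneg_right (by have := mul_nonneg hA (sq_nonneg (c.Tinf + 1)); linarith) hq.1
  F_cont := cm_f_cont
  Pf_cont := cm_p_cont
  F_pos := cm_f_pos
  F_le := cm_f_le_one
  F_one := fun _ ht => cm_f_of_le ht
  Pf_zero := fun _ ht => cm_p_of_le ht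
  e_eq := by
    filter_upwards [h.sys] with k ⟨Y, hY, e⟩ ρ
    rw [e]
    rfl
  p_eq := by
    filter_upwards [h.sys] with k ⟨Y, hY, e⟩ ρ
    rw [e]
    rfl
  lam_d := by
    filter_upwards [h.sys] with k ⟨Y, hY, e⟩
    rw [e]
    exact ⟨hY.lam0, hY.ok.d0, hY.lam1⟩
  x_d := by
    obtain ⟨Cd, -, hb⟩ := pfi_x_le_d h.num
    refine ⟨Cd, ?_⟩
    filter_upwards [h.sys, hb] with k ⟨Y, hY, e⟩ hk
    rw [e]
    exact hk
  e_x := by
    obtain ⟨Cx, hCx, hb⟩ := pfi_x2_le h.num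
    refine ⟨Cx⁻¹, inv_pos.2 hCx, ?_⟩
    filter_upwards [h.sys, hb] with k ⟨Y, hY, e⟩ hk
    rw [e]
    show Cx⁻¹ * x k ^ 2 ≤ (D k).P.e (lam k) (x k)
    rw [inv_mul_le_iff₀ hCx]
    exact hk
  lam_w := by
    refine (pfi_lam_ell h.num).congr' ?_
    filter_upwards [h.sys] with k ⟨Y, hY, e⟩
    rw [e]
    show lam k / x k ^ 2 * (pfiEll (D k).P / x k) = lam k * (pfiWc (D k).P + (D k).P.rmin) / x k ^ 3
    rw [pfi_wc_ell]
    have := hY.x0.ne'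
    field_simp
  mis := by
    intro C
    refine ⟨15, by norm_num, ?_⟩
    have hC : ∀ᶠ k in U, C * x k < 1 := by
      have := h.num.x_lim.const_mul C
      rw [mul_zero] at this
      exact this.eventually (gt_mem_nhds one_pos)
    filter_upwards [h.sys, hC] with k ⟨Y, hY, e⟩ hCk
    rw [e]
    filter_upwards [pfi_mis hY] with u hu h1 h2 h3
    exact hu h1 (h2.trans hCk.le) h3
  mis0 := by
    filter_upwards [h.sys] with k ⟨Y, hY, e⟩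
    rw [e]
    exact pfi_mis0 hY

/-- **PE Thm 5.1 (28) for the instance** -/
theorem pfi_main (h : PfiSeq U c D lam x E c1 C1 C0 Csc a2 a4) (v : ℝ) (hv : 0 < v) :
    Tendsto (fun k => (E k).r (x k * v) / x k) U (𝓝 (v / (c.Tinf * a4 ^ 2 / (2 * a2 ^ 3)))) := by
  refine (rgw_main_pt (pfi_hyp h) v hv).congr' ?_
  filter_upwards [h.sys] with k ⟨Y, hY, e⟩
  rw [e]
  rfl

/-- **PE Lemma 5.5 for the instance** -/
theorem pfi_lin (h : PfiSeq U c D lam x E c1 C1 C0 Csc a2 a4) (C : ℝ) :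
    ∃ M : ℝ, ∀ᶠ k in U, ∀ q ∈ Icc (0:ℝ) (C * x k), |(E k).Gm q - q| ≤ M * x k ^ 3 := by
  obtain ⟨M, hM⟩ := rgw_lin (pfi_hyp h) C
  refine ⟨M, ?_⟩
  filter_upwards [h.sys, hM] with k ⟨Y, hY, e⟩ hk
  rw [e] at hk ⊢
  exact hk

theorem pfi_lin_slope (h : PfiSeq U c D lam x E c1 C1 C0 Csc a2 a4) :
    ∃ M : ℝ, ∀ᶠ k in U, |(E k).Gm1 0 - 1| ≤ M * x k ^ 2 := by
  obtain ⟨M, hM⟩ := rgw_lin_slope (pfi_hyp h)
  refine ⟨M, ?_⟩
  filter_upwards [h.sys, hM] with k ⟨Y, hY, e⟩ hk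
  rw [e] at hk ⊢
  exact hk

end seq

/-- the comparison instance of PE Sec. 3 -/
def pfkI (D : P6D) (lam : ℝ) (q : CmQ D.P) : CmI := ⟨D.P, lam, D.b0, D.h0, q⟩

/-- the scalar curves of the path `(b,h)`, variance time, horizon `τ` -/
def pfkSc (n : ℕ) (b h : ℝ → ℝ) (τ : ℝ) : RgSc where
  tau := τ
  al := pfAl n b h
  Gam := pfGh n b h τ
  M2 := pfM2 n b h τ
  M3 := pfM3 n b h τ
  N3 := pfN3 n b h τ
  a2 := pfsA2 n b h τ
  a4 := pfsA4 n b h τ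

/-- the system on the SK numbers -/
def pfkSys (D : P6D) (lam x τ : ℝ) (q : CmQ D.P) (H J : ℝ → ℝ) : PfiSys D lam x where
  q := q
  S := pfS D lam q.r
  B := pfB D lam q.r
  bA := fun u => ghAt 1 (D.Pb lam q.r) (ghPosA u)
  hA := fun u => ghAt 1 (D.Ph lam q.r) (ghPosA u)
  H := H
  J := J
  Sc := pfkSc D.P.n (D.Pb lam q.r) (D.Ph lam q.r) τ

/-- **what Step 0 and PE Lemma 3.3 deliver for one system** -/
structure PfkGood (c : P6C) (D : P6D) (lam x : ℝ) (r : ℝ → ℝ) (ca ce c1 C1 C0 : ℝ) (q : CmQ D.P) (H J : ℝ → ℝ) : Prop where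
  qr : q.r = r
  std : (pfkI D lam q).Std c.cE c.D0 c.tau
  loc : (pfkI D lam q).Loc ca ce c1 C1 C0 x
  h0m : MonotoneOn D.h0 (Icc D.P.u0 1)
  m_eq : D.P.m = c.m
  u0x : D.P.u0 ≤ x
  pot : CmkPot (pfkI D lam q) H J
  T1 : 1 < D.T
  T2 : D.T < c.Tinf + 1

theorem pfk_eqns_cite : True := by
  have := @pfkI.eq_1; have := @pfkSc.eq_1; have := @pfkSys.eq_1
  trivial

theorem pfk_tau_pos {c : P6C} (hc : c.Ok) : 0 < c.tau := by
  have := hc.K_pos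
  have := hc.T_gt
  unfold P6C.tau
  linarith

/-! ## the scalar curves -/

/-- PE Lemma 5.3 for the scalar curves of an arbitrary path, constants uniform -/
theorem pfk_sc_ok (hSc : PfImpSc) {τ : ℝ} (hτ : 0 < τ) : ∃ cs Cs : ℝ, 0 < cs ∧ cs ≤ Cs ∧ ∀ (n : ℕ) (b h : ℝ → ℝ),
    (pfkSc n b h τ).Ok Cs ∧ pfsA2 n b h τ ∈ Icc cs Cs ∧ -pfsA4 n b h τ ∈ Icc cs Cs := by
  obtain ⟨cs, Cs, hcs, hcC, H⟩ := hSc τ hτ
  refine ⟨cs, Cs, hcs, hcC, fun n b h => ?_⟩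
  obtain ⟨ha2, ha4, hN3, hM3, hGam, -, hM2, hN3e, hM3e⟩ := H (pfAl n b h) (pfs_alK_coef _ τ)
  exact ⟨⟨pfs_alK_mono _, pfs_alK_nn _, hGam, hM2, hN3, hM3, hN3e, hM3e⟩, ha2, ha4⟩

/-! ## one system -/

section one

variable {c : P6C} {D : P6D} {lam x : ℝ} {r : ℝ → ℝ} {ca ce c1 C1 C0 Csc : ℝ} {q : CmQ D.P} {H J : ℝ → ℝ}

theorem pfk_adm (g : PfkGood c D lam x r ca ce c1 C1 C0 q H J) : CkAdm 1 (D.Pb lam q.r) (D.Ph lam q.r) := g.std.adm q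

theorem pfk_n_pos (g : PfkGood c D lam x r ca ce c1 C1 C0 q H J) : 0 < D.P.n := by
  have : 3 ≤ D.P.n := g.std.ok.n3
  omega

/-- PE Lemma 3.3 on the SK numbers -/
theorem pfk_geo (g : PfkGood c D lam x r ca ce c1 C1 C0 q H J) : Cm4Geo D.P lam q (pfS D lam q.r) (pfB D lam q.r) H J := by
  have hPr := cmk_pr_ok D.P.n (pfk_n_pos g)
  have hA := pfk_adm g
  exact ⟨hPr.S_mono _ _ hA, hPr.B_mono _ _ hA, hPr.S_nonneg _ _ hA, hPr.S_sq _ _ hA, hPr.B_le _ _ hA,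
    g.pot.J_pos, g.pot.J_cont, g.pot.J_dist, g.pot.H_sub, g.pot.cap, g.pot.floor⟩

theorem pfk_ok (hc : c.Ok) (g : PfkGood c D lam x r ca ce c1 C1 C0 q H J)
    (hsc : (pfkSc D.P.n (D.Pb lam q.r) (D.Ph lam q.r) c.tau).Ok Csc) :
    (pfkSys D lam x c.tau q H J).Ok c.cE c.D0 c1 C1 C0 Csc where
  cE_pos := hc.cE_pos
  ok := g.std.ok
  lam0 := g.std.lam0
  lam1 := g.std.lam1
  x0 := g.loc.x0
  T0 := by linarith [g.T1]
  geo := pfk_geo g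
  bA_mono := (pfs_atA_mono (pfk_adm g).1).monotoneOn _
  bA_nn := fun u _ => pfs_atA_nn (pfk_adm g).1 u
  bA_meas := (pfs_atA_mono (pfk_adm g).1).measurable
  hA_mono := (pfs_atA_mono (pfk_adm g).2).monotoneOn _
  hA_nn := fun u _ => pfs_atA_nn (pfk_adm g).2 u
  hA_meas := (pfs_atA_mono (pfk_adm g).2).measurable
  reg := g.loc.reg
  sc := hsc
  tau_ge := by
    have := hc.K_pos
    have := g.T2
    show D.T ≤ 2 * c.K + c.Tinf + 1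
    linarith
  al_eq := fun _ => rfl

/-- `E|X_p|² = S_p` -/
theorem pfk_MX_one (n : ℕ) (b h : ℝ → ℝ) (p : GhPos) : cmkMX n b h 1 p = skCS n 1 b h p := by
  show skCNu n 1 b h 2 (ghR2 p) (fun σ => ∏ i : Fin 1, skOv (σ ⟨2 * i.1, _⟩) (σ ⟨2 * i.1 + 1, _⟩)) = skCNu n 1 b h 2 (ghR2 p) fun σ => skOv (σ 0) (σ 1)
  congr 1
  funext σ
  simp

/-- `E R_p² = B_p` -/
theorem pfk_MR_one (n : ℕ) (b h : ℝ → ℝ) (p : GhPos) : cmkMR n b h 1 p = skCB n 1 b h p := rfl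

/-- (12) for one system -/
theorem pfk_raw_one (g : PfkGood c D lam x r ca ce c1 C1 C0 q H J) {K : ℝ} (hK : 0 < K)
    (hr : ∀ p : GhPos, p.Ok 1 → cmkMX D.P.n (D.Pb lam q.r) (D.Ph lam q.r) 1 p ≤ (K * (p.u + x)) ^ 1 ∧
      cmkMR D.P.n (D.Pb lam q.r) (D.Ph lam q.r) 1 p ≤ (K * (p.u + x)) ^ (2 * 1)) {u : ℝ} (hu : u ∈ Icc (0:ℝ) 1) :
    (pfkSys D lam x c.tau q H J).S u ≤ K * (u + x) ∧ (pfkSys D lam x c.tau q H J).Dd u ≤ K * (u + x) := by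
  obtain ⟨h1, h2⟩ := hr (ghPosA u) (cmk_posA_ok hu)
  rw [pfk_MX_one, pow_one] at h1
  rw [pfk_MR_one] at h2
  have hx := g.loc.x0
  have hpu : (ghPosA u).u = u := rfl
  rw [hpu] at h1 h2
  refine ⟨h1, ?_⟩
  show Real.sqrt (pfB D lam q.r (pfiC01 u) - pfS D lam q.r (pfiC01 u) ^ 2) ≤ _
  rw [pfi_c01_of_mem hu]
  refine Real.sqrt_le_iff.2 ⟨by have := hu.1; positivity, ?_⟩
  have : pfB D lam q.r u ≤ (K * (u + x)) ^ 2 := h2
  nlinarith [sq_nonneg (pfS D lam q.r u)]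

end one

/-! ## (19) for one system, model free -/

section mom

variable {D : P6D} {lam x : ℝ} {Y : PfiSys D lam x} {cE D0 c1 C1 C0 Csc : ℝ}

theorem pfi_Dd_sq_le_one (hY : Y.Ok cE D0 c1 C1 C0 Csc) (u : ℝ) : Y.Dd u ^ 2 ≤ 1 := by
  have hm := pfi_c01_mem u
  have h1 : Y.Dd u ^ 2 = Y.B (pfiC01 u) - Y.S (pfiC01 u) ^ 2 := Real.sq_sqrt (sub_nonneg.2 (hY.geo.S_sq _ hm))
  rw [h1]
  nlinarith [hY.geo.B_le _ hm, sq_nonneg (Y.S (pfiC01 u))]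

theorem pfi_Dd_sq_int (hY : Y.Ok cE D0 c1 C1 C0 Csc) {s : Set ℝ} (hs : volume s ≠ ⊤) : IntegrableOn (fun u => Y.Dd u ^ 2) s := by
  refine Measure.integrableOn_of_bounded (M := 1) hs ((pfi_Dd_meas hY).pow_const 2).aestronglyMeasurable ?_
  refine Eventually.of_forall fun u => ?_
  rw [Real.norm_eq_abs, abs_of_nonneg (sq_nonneg _)]
  exact pfi_Dd_sq_le_one hY u

/-- on masses `O(x)` the quantile is `O(x)` (monotonicity + outer regularity) -/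
theorem pfi_r_le (hY : Y.Ok cE D0 c1 C1 C0 Csc) (hC1p : 0 ≤ C1) {CC u : ℝ} (hu0 : D.P.u0 ≤ u) (hu : u ≤ CC * x) (hx1 : max CC C0 * x ≤ 1) :
    Y.q.r u ≤ C1 * max CC C0 * x := by
  have hx := hY.x0
  have h1 : CC * x ≤ max CC C0 * x := mul_le_mul_of_nonneg_right (le_max_left _ _) hx.le
  have h2 : C0 * x ≤ max CC C0 * x := mul_le_mul_of_nonneg_right (le_max_right _ _) hx.le
  have hum : u ∈ Icc D.P.u0 1 := ⟨hu0, hu.trans (h1.trans hx1)⟩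
  set v := max u (C0 * x) with hv
  have hv1 : v ≤ max CC C0 * x := max_le (hu.trans h1) h2
  have hvm : v ∈ Icc D.P.u0 1 := ⟨hum.1.trans (le_max_left _ _), hv1.trans hx1⟩
  have h3 := (cm_q_r_strictMono hY.cE_pos hY.ok Y.q).monotoneOn hum hvm (le_max_left _ _)
  have h4 := (hY.reg v (le_max_right _ _) hvm.2 hvm.1).2
  calc Y.q.r u ≤ Y.q.r v := h3
    _ ≤ C1 * v := h4
    _ ≤ C1 * (max CC C0 * x) := mul_le_mul_of_nonneg_left hv1 hC1p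
    _ = C1 * max CC C0 * x := by ring

/-- (19), mass: the side condition `r(u) ≤ C' x` follows from outer regularity -/
theorem pfi_Dmass_one (hY : Y.Ok cE D0 c1 C1 C0 Csc) (hC1p : 0 ≤ C1) {cc CC C' β : ℝ} (hC1 : CC ≤ C') (hC2 : C1 * max CC C0 ≤ C') (hu0 : D.P.u0 ≤ cc * x)
    (hx1 : max CC C0 * x ≤ 1)
    (hb : ∫ u in {u | u ∈ Icc (cc * x) (C' * x) ∩ Icc D.P.u0 1 ∧ Y.q.r u ≤ C' * x}, Y.Dd u ^ 2 ≤ β) :
    ∫ u in Icc (cc * x) (CC * x), Y.Dd u ^ 2 ≤ β := by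
  refine (setIntegral_mono_set (pfi_Dd_sq_int hY ?_) (Eventually.of_forall fun u => sq_nonneg _) (Eventually.of_forall ?_)).trans hb
  · refine ne_top_of_le_ne_top (b := volume (Icc (cc * x) (C' * x))) (by simp) (measure_mono fun u hu => hu.1.1)
  · intro u hu
    have hx := hY.x0
    have h1 : CC * x ≤ max CC C0 * x := mul_le_mul_of_nonneg_right (le_max_left _ _) hx.le
    have hum : u ∈ Icc D.P.u0 1 := ⟨hu0.trans hu.1, hu.2.trans (h1.trans hx1)⟩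
    exact ⟨⟨⟨hu.1, hu.2.trans (mul_le_mul_of_nonneg_right hC1 hx.le)⟩, hum⟩,
      (pfi_r_le hY hC1p hum.1 hu.2 hx1).trans (mul_le_mul_of_nonneg_right hC2 hx.le)⟩

/-- the band of radii of RIG is the band of PE (19) -/
theorem pfi_I_eq (hY : Y.Ok cE D0 c1 C1 C0 Csc) {cc CC : ℝ} (hu0 : D.P.u0 < cc * x) (hx1 : CC * x ≤ 1) :
    Y.phy.I cc CC = {ρ | ρ ∈ Icc D.P.rmin 1 ∧ ρ ≤ CC * x ∧ Y.q.al ρ ∈ Icc (cc * x) (CC * x)} := by
  have hr1 := pfi_rmin_le_one hY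
  have hcl : ∀ ρ ∈ Icc D.P.rmin 1, Y.phy.m ρ = Y.q.al ρ := by
    intro ρ hρ
    show Y.q.al (max D.P.rmin (min ρ 1)) = _
    rw [min_eq_left hρ.2, max_eq_right hρ.1]
  ext ρ
  constructor
  · rintro ⟨h0, h1, h2, h3⟩
    have h1' : ρ ≤ CC * x := h1
    have hρ : ρ ∈ Icc D.P.rmin 1 := by
      refine ⟨?_, h1'.trans hx1⟩
      by_contra hlt
      have hlt' : ρ < D.P.rmin := not_le.1 hlt
      have e : Y.phy.m ρ = D.P.u0 := by
        show Y.q.al (max D.P.rmin (min ρ 1)) = _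
        rw [max_eq_left ((min_le_left _ _).trans hlt'.le), Y.q.al_min]
      rw [e] at h2
      have h2' : cc * x ≤ D.P.u0 := h2
      linarith
    rw [hcl ρ hρ] at h2 h3
    exact ⟨hρ, h1', h2, h3⟩
  · rintro ⟨hρ, h1, h2, h3⟩
    refine ⟨hY.ok.r0.trans hρ.1, h1, ?_, ?_⟩
    · rw [hcl ρ hρ]; exact h2
    · rw [hcl ρ hρ]; exact h3

theorem pfi_band_meas (hY : Y.Ok cE D0 c1 C1 C0 Csc) (a b e : ℝ) :
    MeasurableSet {ρ | ρ ∈ Icc D.P.rmin 1 ∧ ρ ≤ e ∧ Y.q.al ρ ∈ Icc a b} := by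
  refine Set.OrdConnected.measurableSet ⟨?_⟩
  rintro y ⟨hy, hy1, hy2⟩ z ⟨hz, hz1, hz2⟩ w hw
  have hwm : w ∈ Icc D.P.rmin 1 := ⟨hy.1.trans hw.1, hw.2.trans hz.2⟩
  have hm := (cm_q_al_strictMono hY.cE_pos hY.ok Y.q).monotoneOn
  exact ⟨hwm, hw.2.trans hz1, hy2.1.trans (hm hy hwm hw.1), (hm hwm hz hw.2).trans hz2.2⟩

/-- (19), radius -/
theorem pfi_Drad_one (hY : Y.Ok cE D0 c1 C1 C0 Csc) {cc CC β : ℝ} (hu0 : D.P.u0 < cc * x) (hx1 : CC * x ≤ 1)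
    (hb : ∫ ρ in {ρ | ρ ∈ Icc D.P.rmin 1 ∧ ρ ≤ CC * x ∧ Y.q.al ρ ∈ Icc (cc * x) (CC * x)}, Y.Dd (Y.q.al ρ) ^ 2 ≤ β) :
    ∫ ρ in Y.phy.I cc CC, Y.phy.Dd (Y.phy.m ρ) ^ 2 ≤ β := by
  rw [pfi_I_eq hY hu0 hx1]
  refine le_of_eq_of_le (setIntegral_congr_fun (pfi_band_meas hY _ _ _) fun ρ hρ => ?_) hb
  show Y.Dd (Y.q.al (max D.P.rmin (min ρ 1))) ^ 2 = _
  rw [min_eq_left hρ.1.2, max_eq_right hρ.1.1]

end mom

end

end Claimed.Agent.R286
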